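import Vale.Agent.P146.H640.LamHL
import Vale.Agent.P146.H816.SkNS
import Vale.Agent.P146.H522.PoCS

/-!
Plan R1, the row (LAM) for a general position system: the upper bound of `T` (`lam_cs_out`).
-/

open MeasureTheory ProbabilityTheory

namespace Vale.Agent.P146.R1S

open Vale.Agent.P157.Lv Vale.Agent.P146.H425 Vale.Agent.P146.H325
  Vale.Agent.P146.H712 Vale.Agent.P146.R1 Vale.Agent.P146.R1C Matrix
open Vale.Agent.P146.H332 hiding Nf Gf NN fr_nonneg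

set_option linter.unusedSectionVars false

lemma D_row {n : ℕ} {k : ℝ} {q : Par} (S : CS n k q.x) (b : Fin n) (z : Pair n → ℝ) :
    ∑ e ∈ row b, S.D e z ^ 2 ≤ k ^ 2 * n := by
  have h1 := S.sum_row_A 1 b z
  have h2 := lw_vn_le S 1 b z
  have h3 : ∑ e ∈ row b, S.D e z ^ 2 = ∑ e ∈ row b, (k * S.A 1 z e.1.1 e.1.2) ^ 2 :=
    Finset.sum_congr rfl fun e _ => by rw [S.D_eq]
  rw [h3, h1]
  refine mul_le_mul_of_nonneg_left ?_ (sq_nonneg k)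
  linarith

lemma D_rows {n : ℕ} {k : ℝ} {q : Par} (S : CS n k q.x) (b b' : Fin n) (z : Pair n → ℝ) :
    ∑ e ∈ row b ∪ row b', S.D e z ^ 2 ≤ 2 * (k ^ 2 * n) := by
  have h1 : ∑ e ∈ row b ∪ row b', S.D e z ^ 2 ≤
      ∑ e ∈ row b, S.D e z ^ 2 + ∑ e ∈ row b', S.D e z ^ 2 := by
    rw [← Finset.sum_union_inter]
    exact le_add_of_nonneg_right (Finset.sum_nonneg fun _ _ => sq_nonneg _)
  have h2 := D_row S b z
  have h3 := D_row S b' z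
  linarith

/-- the hypotheses of the numbers hold for all large `n` -/
theorem numS_of {β : ℝ} (hβ : 0 < β) : ∃ n₀ : ℕ, 2 ≤ n₀ ∧ ∀ n : ℕ, n₀ ≤ n →
    ∀ (q : Par) (S : CS n (kk n β) q.x) (A δ T ρ : ℝ), Fo n β A δ T ρ q S.F S.A S.DA →
      NumS S A δ T ρ ((n : ℝ) ^ 200)⁻¹ := by
  obtain ⟨n₁, h1, hn₁⟩ := law2_of hβ
  obtain ⟨n₂, h2, hn₂⟩ := law_const hβ
  refine ⟨max n₁ n₂, h1.trans (le_max_left _ _), fun n hn q S A δ T ρ hf => ?_⟩
  have hn2 : (2 : ℝ) ≤ n := hf.n0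
  have hnn : 0 < n := by have := hf.n2; omega
  refine ⟨hf, ?_, by positivity, ?_, ?_⟩
  · refine hn₁ n ((le_max_left _ _).trans hn) q S.F _ _ _ S.c11 hf.ok hf.x7 fun b b' z => ?_
    have h3 := D_rows S b b' z
    rwa [kk_sq hnn β] at h3
  · rw [← div_eq_mul_inv, div_le_one (by positivity)]
    exact pow_le_pow_right₀ (by linarith) (by norm_num)
  · exact (hn₂ n ((le_max_right _ _).trans hn) q.x hf.ok.x0 hf.x7).1

/-- **(LAM) for a position system.** -/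
theorem lam_cs_out {β Γ : ℝ} (hβ : 0 < β) (hΓ : 0 ≤ Γ) : ∃ C : ℝ, 1 ≤ C ∧ ∃ n₀ : ℕ, ∀ n : ℕ,
    n₀ ≤ n → ∀ (q : Par) (S : CS n (kk n β) q.x) (A δ T ρ B L M : ℝ)
      (HF TF : Pair n → Pair n → (Pair n → ℝ) → ℝ),
      2 ≤ A → Sm S.F S.D B L HF TF M →
      (∀ s : ℝ, Cum.Fn (kk n β) SkS (uu q.x s S.F) (S.mu s) Γ) →
      Fo n β A δ T ρ q S.F S.A S.DA →
        T ≤ C * A ^ 12 * (√(1 / (n * T)) + q.x * (√(NN n β ρ) / n) + (√(NN n β ρ) / n) ^ 2 +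
          1 / n) := by
  obtain ⟨n₀, -, hn₀⟩ := numS_of hβ
  set B0 : ℝ := 151920 * (β ^ 6 + β ^ 3) + 365 * β ^ 4 + 128 * (36 * Γ ^ 6) * β ^ 8 + 1 with hB0
  have hB1 : 1 ≤ B0 := by
    rw [hB0]
    have : 0 ≤ 151920 * (β ^ 6 + β ^ 3) + 365 * β ^ 4 + 128 * (36 * Γ ^ 6) * β ^ 8 := by positivity
    linarith
  refine ⟨64 * B0 ^ 3, ?_, n₀, fun n hn q S A δ T ρ B L M HF TF hA2 hS hFn hf => ?_⟩
  · have := one_le_pow₀ hB1 (n := 3)
    linarith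
  have hnum := hn₀ n hn q S A δ T ρ hf
  have hA : 1 ≤ A := hf.A1
  have hN := hf.N0
  have hn2 : (2 : ℝ) ≤ n := hf.n0
  have hT := hf.Tp
  have hx := hf.ok.x0
  have hs1 : 0 < q.s1 := hnum.s1p
  have hE : 0 ≤ √(1 / (n * T)) := Real.sqrt_nonneg _
  have e0 : √(1 / (n * T)) = 1 / √(n * T) := by
    rw [Real.sqrt_div zero_le_one, Real.sqrt_one]
  have heC : eC n β A T ρ q ≤ (β ^ 6 + β ^ 3) * A ^ 3 * NN n β ρ ^ 2 *
      (√(1 / (n * T)) + q.x * (√(NN n β ρ) / n)) := by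
    unfold eC
    have hA3 : A ^ 2 ≤ A ^ 3 := pow_le_pow_right₀ hA (by norm_num)
    have a1 : 0 ≤ β ^ 6 * A ^ 3 * NN n β ρ ^ 2 * √(1 / (n * T)) := by positivity
    have a2 : 0 ≤ β ^ 3 * A ^ 3 * NN n β ρ ^ 2 * (q.x * (√(NN n β ρ) / n)) := by positivity
    have a3 : β ^ 3 * A ^ 2 * (NN n β ρ ^ 2 / √(n * T)) ≤
        β ^ 3 * A ^ 3 * NN n β ρ ^ 2 * √(1 / (n * T)) := by
      rw [e0]
      have : β ^ 3 * A ^ 2 * (NN n β ρ ^ 2 / √(n * T)) =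
        β ^ 3 * A ^ 2 * NN n β ρ ^ 2 * (1 / √(n * T)) := by ring
      rw [this]
      refine mul_le_mul_of_nonneg_right ?_ (by positivity)
      exact mul_le_mul_of_nonneg_right (mul_le_mul_of_nonneg_left hA3 (by positivity))
        (by positivity)
    have a4 : (β ^ 6 + β ^ 3) * A ^ 3 * NN n β ρ ^ 2 *
      (√(1 / (n * T)) + q.x * (√(NN n β ρ) / n)) =
      β ^ 6 * A ^ 3 * NN n β ρ ^ 2 * √(1 / (n * T)) +
      β ^ 3 * A ^ 3 * NN n β ρ ^ 2 * (q.x * (√(NN n β ρ) / n)) +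
      β ^ 3 * A ^ 3 * NN n β ρ ^ 2 * √(1 / (n * T)) +
      β ^ 6 * A ^ 3 * (q.x * (√(NN n β ρ) / n) * NN n β ρ ^ 2) := by ring
    rw [a4]
    linarith
  have hA34 : A ^ 3 ≤ A ^ 4 := pow_le_pow_right₀ hA (by norm_num)
  have hA24 : A ^ 2 ≤ A ^ 4 := pow_le_pow_right₀ hA (by norm_num)
  have hA14 : A ≤ A ^ 4 := le_self_pow₀ hA (by norm_num)
  have hA4 : 1 ≤ A ^ 4 := one_le_pow₀ hA
  have hA0 : 0 ≤ A ^ 3 := by positivity
  have hBA : A ≤ B0 * A ^ 4 := by nlinarith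
  have hB : 1 ≤ B0 * A ^ 4 := by nlinarith
  have heC0 : 0 ≤ eC n β A T ρ q := by
    obtain ⟨h4, h5⟩ := hnum.eC_parts
    unfold eC
    linarith
  have key := lam_out_S (S := S) (cI := 36 * Γ ^ 6) (B := B0 * A ^ 4)
    (e1 := 101280 * eC n β A T ρ q) (e3 := 50640 * eC n β A T ρ q) hf hnum.law (by positivity)
    (fun s hs0 hs1' b b' hb z => vH_le (hFn s) hs0 b b' z)
    (fun b b' hb w => nlb_fix S hf.ok hs1 b b' hb w) hnum.n1 hnum.n3 hB hBA (by linarith)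
    (by
      have a1 : 101280 * eC n β A T ρ q + 50640 * eC n β A T ρ q =
        151920 * eC n β A T ρ q := by ring
      rw [a1]
      refine (mul_le_mul_of_nonneg_left heC (by norm_num)).trans ?_
      have a2 : 0 ≤ NN n β ρ ^ 2 * (√(1 / (n * T)) + q.x * (√(NN n β ρ) / n)) := by positivity
      have a3 : 151920 * ((β ^ 6 + β ^ 3) * A ^ 3) ≤ B0 * A ^ 4 := by
        have a4 : 151920 * (β ^ 6 + β ^ 3) ≤ B0 := by
          rw [hB0]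
          have : 0 ≤ 365 * β ^ 4 + 128 * (36 * Γ ^ 6) * β ^ 8 := by positivity
          linarith
        calc 151920 * ((β ^ 6 + β ^ 3) * A ^ 3) = 151920 * (β ^ 6 + β ^ 3) * A ^ 3 := by ring
          _ ≤ B0 * A ^ 4 := mul_le_mul a4 hA34 hA0 (by linarith)
      calc 151920 * ((β ^ 6 + β ^ 3) * A ^ 3 * NN n β ρ ^ 2 *
            (√(1 / (n * T)) + q.x * (√(NN n β ρ) / n)))
          = 151920 * ((β ^ 6 + β ^ 3) * A ^ 3) * (NN n β ρ ^ 2 *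
            (√(1 / (n * T)) + q.x * (√(NN n β ρ) / n))) := by ring
        _ ≤ B0 * A ^ 4 * (NN n β ρ ^ 2 *
            (√(1 / (n * T)) + q.x * (√(NN n β ρ) / n))) := mul_le_mul_of_nonneg_right a3 a2
        _ = _ := by ring)
    (by
      refine hnum.dg.trans ?_
      have a4 : 365 * β ^ 4 ≤ B0 := by
        rw [hB0]
        have : 0 ≤ 151920 * (β ^ 6 + β ^ 3) + 128 * (36 * Γ ^ 6) * β ^ 8 := by positivity
        linarith
      have a5 : (0 : ℝ) ≤ NN n β ρ ^ 2 / n := by positivity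
      calc 365 * (β ^ 4 * A ^ 2 * (NN n β ρ ^ 2 / n))
          = 365 * β ^ 4 * A ^ 2 * (NN n β ρ ^ 2 / n) := by ring
        _ ≤ B0 * A ^ 4 * (NN n β ρ ^ 2 / n) :=
          mul_le_mul_of_nonneg_right (mul_le_mul a4 hA24 (by positivity) (by linarith)) a5)
    (H522.po1_cs S hS hf hA2)
    (by
      have a4 : 128 * (36 * Γ ^ 6) * β ^ 8 ≤ B0 := by
        rw [hB0]
        have : 0 ≤ 151920 * (β ^ 6 + β ^ 3) + 365 * β ^ 4 := by positivity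
        linarith
      exact mul_le_mul a4 hA34 hA0 (by linarith))
  refine key.trans (le_of_eq ?_)
  ring

/-- **(LAM) for a position system, in the letters of the assembly.** -/
theorem lam_cs_hL {β Γ : ℝ} (hβ : 0 < β) (hΓ : 0 ≤ Γ) : ∃ C : ℝ, ∃ m : ℕ, ∀ α : ℝ, 0 < α →
    ∃ n₀ : ℕ, ∀ n : ℕ, n₀ ≤ n → ∀ (q : Par) (S : CS n (kk n β) q.x) (δ T ρ B L M : ℝ)
      (HF TF : Pair n → Pair n → (Pair n → ℝ) → ℝ),
      Sm S.F S.D B L HF TF M →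
      (∀ s : ℝ, Cum.Fn (kk n β) SkS (uu q.x s S.F) (S.mu s) Γ) →
      Fo n β ((n : ℝ) ^ α) δ T ρ q S.F S.A S.DA →
        T ≤ C * ((n : ℝ) ^ α) ^ m * (√(1 / (n * T)) + q.x * √(2 * ρ / (β ^ 2 * n)) +
          2 * ρ / (β ^ 2 * n) + 1 / n) := by
  obtain ⟨C, hC, n₀, hn₀⟩ := lam_cs_out (β := β) hβ hΓ
  refine ⟨C, 12, fun α hα => ?_⟩
  obtain ⟨N, hN⟩ := exists_nat_ge ((2 : ℝ) ^ (1 / α))
  refine ⟨max n₀ (max N 1), fun n hn q S δ T ρ B L M HF TF hS hFn hf => ?_⟩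
  have hn1 : n₀ ≤ n := (le_max_left _ _).trans hn
  have hn2 : N ≤ n := ((le_max_left _ _).trans (le_max_right _ _)).trans hn
  have hn3 : 0 < n := by
    have := ((le_max_right N 1).trans (le_max_right _ _)).trans hn
    omega
  have hA : (2 : ℝ) ≤ (n : ℝ) ^ α := by
    have h1 : (2 : ℝ) ^ (1 / α) ≤ n := hN.trans (by exact_mod_cast hn2)
    have h2 := Real.rpow_le_rpow (by positivity) h1 hα.le
    rw [← Real.rpow_mul (by norm_num), one_div_mul_cancel hα.ne', Real.rpow_one] at h2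
    exact h2
  have h3 := hn₀ n hn1 q S ((n : ℝ) ^ α) δ T ρ B L M HF TF hA hS hFn hf
  have hρ : 0 ≤ 2 * ρ / (β ^ 2 * n) := by
    have := hf.ρ1
    positivity
  rw [sqrt_NN_div hn3, Real.sq_sqrt hρ] at h3
  exact h3

end Vale.Agent.P146.R1S
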