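import Vale.Agent.P146.H425.R1Def
import Vale.Agent.P146.Bd3.B4

/-!
Prékopa–Leindler for the value function: the exponential moment of the increment of the value
function on the set where its gradient is small.
-/

open MeasureTheory ProbabilityTheory
open scoped ENNReal

namespace Vale.Agent.P146.R1

open Vale.Agent.P157.Lv Vale.Agent.P146.H425

set_option linter.unusedSectionVars false

variable {κ : Type} [Fintype κ] {F U : (κ → ℝ) → ℝ} {D : κ → (κ → ℝ) → ℝ} {B L x θ t0 t1 s t : ℝ}

/-- The tangent inequality of a convex function. -/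
lemma tan_cv (h : C11 U D B L) (hc : Cv U) (y w : κ → ℝ) :
    U y + ∑ e, D e y * w e ≤ U (y + w) := by
  have key : ∀ ε : ℝ, 0 < ε → ε ≤ 1 → ∑ e, D e y * w e ≤ U (y + w) - U y + ε * (L * ‖w‖ ^ 2) := by
    intro ε h0 h1
    have a1 := hc (1 - ε) ε (by linarith) h0.le (by ring) y (y + w)
    have e1 : (1 - ε) • y + ε • (y + w) = y + ε • w := by
      rw [smul_add, sub_smul, one_smul]; abel
    rw [e1] at a1
    have a2 := (abs_le.1 (h.quad y (ε • w))).1
    have e2 : ∑ e, D e y * (ε • w) e = ε * ∑ e, D e y * w e := by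
      rw [Finset.mul_sum]
      exact Finset.sum_congr rfl fun e _ => by rw [Pi.smul_apply, smul_eq_mul]; ring
    rw [e2, norm_smul, Real.norm_eq_abs, abs_of_pos h0, mul_pow] at a2
    have a3 : ε * ∑ e, D e y * w e ≤ ε * (U (y + w) - U y + ε * (L * ‖w‖ ^ 2)) := by
      nlinarith
    exact le_of_mul_le_mul_left a3 h0
  have hL : 0 ≤ L * ‖w‖ ^ 2 := mul_nonneg h.L0 (sq_nonneg _)
  have : ∑ e, D e y * w e ≤ U (y + w) - U y := by
    refine le_of_forall_pos_le_add fun δ hδ => ?_
    have h1 := key (min 1 (δ / (L * ‖w‖ ^ 2 + 1))) (by positivity) (min_le_left _ _)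
    have h2 : min 1 (δ / (L * ‖w‖ ^ 2 + 1)) * (L * ‖w‖ ^ 2) ≤ δ := by
      calc min 1 (δ / (L * ‖w‖ ^ 2 + 1)) * (L * ‖w‖ ^ 2) ≤
            δ / (L * ‖w‖ ^ 2 + 1) * (L * ‖w‖ ^ 2 + 1) := by
            gcongr
            · exact min_le_right _ _
            · linarith
        _ = δ := by field_simp
    linarith
  linarith

open Classical in
/-- **Prékopa–Leindler**: the exponential moment of a convex function where its gradient is small. -/
theorem pl_gen (h : C11 U D B L) (hc : Cv U) {lam l : ℝ} (hlam : 0 ≤ lam) (hl : 0 ≤ l) :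
    ∫ z, (if ∑ e, D e z ^ 2 ≤ l ^ 2 then Real.exp (lam * U z) else 0) ∂(gI κ) ≤
      Real.exp (lam * ∫ z, U z ∂(gI κ)) * Real.exp (lam ^ 2 * l ^ 2) := by
  set A : Set (κ → ℝ) := {z | ∑ e, D e z ^ 2 ≤ l ^ 2} with hA
  have hAm : MeasurableSet A :=
    measurableSet_le (Finset.measurable_sum _ fun e _ => (h.meas e).pow_const 2) measurable_const
  have eU : EG fun z => Real.exp (lam * U z) := h.eg_exp lam
  have eV : EG fun z => Real.exp (-lam * U z - lam ^ 2 * l ^ 2) := by
    have := (h.eg_exp (-lam)).const_mul (Real.exp (-(lam ^ 2 * l ^ 2)))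
    refine this.mono ?_ fun z => ?_
    · exact ((h.eg.meas.const_mul _).sub_const _).exp
    · rw [← Real.exp_add]
      refine le_of_eq ?_
      congr 1
      ring_nf
  set u : (κ → ℝ) → ℝ := A.indicator fun z => Real.exp (lam * U z) with hu
  have iu : Integrable u (gI κ) := eU.integrable.indicator hAm
  have um : Measurable u := eU.meas.indicator hAm
  have u0 : ∀ z, 0 ≤ u z := fun z => Set.indicator_nonneg (fun _ _ => (Real.exp_pos _).le) z
  set v : (κ → ℝ) → ℝ := fun z => Real.exp (-lam * U z - lam ^ 2 * l ^ 2) with hv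
  have hpt : ∀ a b : κ → ℝ, a ∈ A → lam * (U a - U b) ≤
      lam ^ 2 * l ^ 2 + (∑ i, (a i - b i) ^ 2) / 4 := by
    intro a b ha
    have h1 := tan_cv h hc a (b - a)
    rw [add_sub_cancel] at h1
    have h2 : (∑ e, D e a * (b - a) e) ^ 2 ≤ l ^ 2 * ∑ e, (a e - b e) ^ 2 := by
      refine (Finset.sum_mul_sq_le_sq_mul_sq _ _ _).trans ?_
      have e2 : ∑ e, (b - a) e ^ 2 = ∑ e, (a e - b e) ^ 2 :=
        Finset.sum_congr rfl fun e _ => by rw [Pi.sub_apply]; ring
      rw [e2]
      exact mul_le_mul_of_nonneg_right ha (Finset.sum_nonneg fun e _ => sq_nonneg _)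
    set S := ∑ e, (a e - b e) ^ 2 with hS
    have hS0 : 0 ≤ S := Finset.sum_nonneg fun e _ => sq_nonneg _
    set q := ∑ e, D e a * (b - a) e with hq
    have h3 : lam * (U a - U b) ≤ lam * (-q) := mul_le_mul_of_nonneg_left (by linarith) hlam
    have h4 : (lam * q) ^ 2 ≤ (lam ^ 2 * l ^ 2) * S := by
      rw [mul_pow, mul_assoc]
      exact mul_le_mul_of_nonneg_left h2 (sq_nonneg _)
    have h5 : lam * (-q) ≤ lam ^ 2 * l ^ 2 + S / 4 := by
      have h6 : (lam ^ 2 * l ^ 2) * S ≤ (lam ^ 2 * l ^ 2 + S / 4) ^ 2 := by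
        nlinarith [sq_nonneg (lam ^ 2 * l ^ 2 - S / 4)]
      have h7 : 0 ≤ lam ^ 2 * l ^ 2 + S / 4 := by positivity
      have h8 := abs_le_of_sq_le_sq (h4.trans h6) h7
      have h9 := (abs_le.1 h8).1
      linarith
    exact h3.trans h5
  have hPL := Vale.Agent.P146.Lt.gaussPL (ι := κ) (s := 1 / 2) (t := 1 / 2) (by norm_num)
    (by norm_num) (by norm_num) (fun z => ENNReal.ofReal (u z)) (fun z => ENNReal.ofReal (v z))
    (fun _ => 1) um.ennreal_ofReal eV.meas.ennreal_ofReal measurable_const ?_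
  · change (∫⁻ z, ENNReal.ofReal (u z) ∂(gI κ)) ^ (1 / 2 : ℝ) *
      (∫⁻ z, ENNReal.ofReal (v z) ∂(gI κ)) ^ (1 / 2 : ℝ) ≤ ∫⁻ _, 1 ∂(gI κ) at hPL
    rw [← ofReal_integral_eq_lintegral_ofReal iu (Filter.Eventually.of_forall u0),
      ← ofReal_integral_eq_lintegral_ofReal eV.integrable
        (Filter.Eventually.of_forall fun z => (Real.exp_pos _).le),
      ← ENNReal.mul_rpow_of_nonneg _ _ (by norm_num : (0 : ℝ) ≤ 1 / 2),
      ← ENNReal.ofReal_mul (integral_nonneg u0), lintegral_one, measure_univ] at hPL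
    have h1 : ENNReal.ofReal ((∫ z, u z ∂(gI κ)) * ∫ z, v z ∂(gI κ)) ≤ 1 := by
      by_contra hh
      push Not at hh
      have := ENNReal.one_lt_rpow hh (by norm_num : (0 : ℝ) < 1 / 2)
      exact absurd hPL (not_le.2 this)
    rw [ENNReal.ofReal_le_one] at h1
    have hJ : Real.exp (-lam * (∫ z, U z ∂(gI κ)) - lam ^ 2 * l ^ 2) ≤ ∫ z, v z ∂(gI κ) := by
      have i1 : Integrable (fun z => -lam * U z - lam ^ 2 * l ^ 2) (gI κ) :=
        (h.eg.integrable.const_mul _).sub (integrable_const _)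
      have := ConvexOn.map_integral_le (μ := gI κ) convexOn_exp Real.continuous_exp.continuousOn
        isClosed_univ (Filter.Eventually.of_forall fun _ => Set.mem_univ _) i1 eV.integrable
      rw [integral_sub (h.eg.integrable.const_mul _) (integrable_const _), integral_const_mul,
        integral_const, probReal_univ, one_smul] at this
      exact this
    have h2 : (∫ z, u z ∂(gI κ)) * Real.exp (-lam * (∫ z, U z ∂(gI κ)) - lam ^ 2 * l ^ 2) ≤ 1 :=
      (mul_le_mul_of_nonneg_left hJ (integral_nonneg u0)).trans h1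
    have e : ∀ z, (if ∑ e, D e z ^ 2 ≤ l ^ 2 then Real.exp (lam * U z) else 0) = u z := by
      intro z
      rw [hu, Set.indicator_apply]
      rfl
    simp_rw [e]
    have h3 := mul_le_mul_of_nonneg_right h2
      (Real.exp_pos (lam * (∫ z, U z ∂(gI κ)) + lam ^ 2 * l ^ 2)).le
    rw [mul_assoc, ← Real.exp_add, one_mul] at h3
    rw [← Real.exp_add]
    refine le_trans (le_of_eq ?_) h3
    have : -lam * (∫ z, U z ∂(gI κ)) - lam ^ 2 * l ^ 2 +
        (lam * (∫ z, U z ∂(gI κ)) + lam ^ 2 * l ^ 2) = 0 := by ring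
    rw [this, Real.exp_zero, mul_one]
  · intro a b
    rw [one_mul]
    by_cases ha : a ∈ A
    · have e1 : u a = Real.exp (lam * U a) := Set.indicator_of_mem ha _
      rw [e1, hv, ENNReal.ofReal_rpow_of_pos (Real.exp_pos _),
        ENNReal.ofReal_rpow_of_pos (Real.exp_pos _), ← ENNReal.ofReal_mul (by positivity),
        ← Real.exp_mul, ← Real.exp_mul, ← Real.exp_add]
      refine ENNReal.ofReal_le_ofReal (Real.exp_le_exp.2 ?_)
      have := hpt a b ha
      linarith
    · have e1 : u a = 0 := Set.indicator_of_notMem ha _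
      rw [e1, ENNReal.ofReal_zero, ENNReal.zero_rpow_of_pos (by norm_num), zero_mul]
      exact zero_le

/-- The value function is convex. -/
lemma cv_W (h : C11 F D B L) (hc : Cv F) (hx : 0 < x) (s : ℝ) : Cv (W x s F) := by
  intro a b ha hb hab w0 w1
  have h1 := layer (x0 := x) (x1 := x) (h.shift (a • w0 + b • w1) s) (h.shift w0 s).lip
    (h.shift w0 s).B0 (h.shift w1 s).lip (h.shift w1 s).B0 hx hx ha hb hab
    (fun v0 v1 => ?_) 0 0
  · rw [← add_mul, hab, one_mul, smul_zero, smul_zero, add_zero, W_shift, W_shift, W_shift] at h1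
    exact h1
  · have h2 := hc a b ha hb hab (w0 + s • v0) (w1 + s • v1)
    refine le_trans (le_of_eq ?_) h2
    congr 1
    rw [smul_add, smul_add, smul_add, smul_comm s a, smul_comm s b]
    abel

lemma cv_uu (h : C11 F D B L) (hc : Cv F) (hx : 0 < x) (t : ℝ) : Cv (uu x t F) := cv_W h hc hx _

lemma uu_jensen (h : C11 F D B L) (hx : 0 < x) (h01 : t ≤ s) (hs : s ≤ 1) (z : κ → ℝ) :
    ∫ y, uu x s F (z + √(s - t) • y) ∂(gI κ) ≤ uu x t F z := by
  have hU := (c11_uu h hx s).shift z (√(s - t))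
  have i1 : Integrable (fun y => x * uu x s F (z + √(s - t) • y)) (gI κ) :=
    hU.eg.integrable.const_mul _
  have h1 := ConvexOn.map_integral_le (μ := gI κ) convexOn_exp Real.continuous_exp.continuousOn
    isClosed_univ (Filter.Eventually.of_forall fun _ => Set.mem_univ _) i1 (hU.eg_exp x).integrable
  have h2 : ∫ y, Real.exp (x * uu x s F (z + √(s - t) • y)) ∂(gI κ) =
      Real.exp (x * uu x t F z) := uu_step h hx h01 hs z
  have h3 : Real.exp (∫ y, x * uu x s F (z + √(s - t) • y) ∂(gI κ)) ≤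
      Real.exp (x * uu x t F z) := h1.trans (le_of_eq h2)
  rw [Real.exp_le_exp, integral_const_mul] at h3
  exact le_of_mul_le_mul_left h3 hx

open Classical in
/-- The exponential moment of the increment of the value function where the gradient is small. -/
theorem pl_slice (h : C11 F D B L) (hc : Cv F) (hx : 0 < x) (h01 : t0 ≤ s) (hs : s ≤ 1)
    {lam l : ℝ} (hlam : 0 ≤ lam) (z0 : κ → ℝ) :
    ∫ y, (if sq x s F D (z0 + √(s - t0) • y) ≤ l ^ 2 then
      Real.exp (lam * (uu x s F (z0 + √(s - t0) • y) - uu x t0 F z0)) else 0) ∂(gI κ) ≤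
      Real.exp (lam ^ 2 * l ^ 2 * (s - t0)) := by
  have hU := (c11_uu h hx s).shift z0 (√(s - t0))
  have hcU : Cv fun y => uu x s F (z0 + √(s - t0) • y) := (cv_uu h hc hx s).shift z0 _
  have hst : 0 ≤ s - t0 := by linarith
  have h1 := pl_gen hU hcU (l := √(s - t0) * |l|) hlam (by positivity)
  have e0 : (√(s - t0) * |l|) ^ 2 = l ^ 2 * (s - t0) := by
    rw [mul_pow, Real.sq_sqrt hst, sq_abs]; ring
  have e1 : ∀ y : κ → ℝ, ∑ e, (√(s - t0) * dd x s F D e (z0 + √(s - t0) • y)) ^ 2 =
      (s - t0) * sq x s F D (z0 + √(s - t0) • y) := by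
    intro y
    unfold sq G2 dd
    rw [Finset.mul_sum]
    exact Finset.sum_congr rfl fun e _ => by rw [mul_pow, Real.sq_sqrt hst]
  rw [e0] at h1
  have h2 : ∫ y, (if sq x s F D (z0 + √(s - t0) • y) ≤ l ^ 2 then
      Real.exp (lam * (uu x s F (z0 + √(s - t0) • y) - uu x t0 F z0)) else 0) ∂(gI κ) ≤
      Real.exp (-(lam * uu x t0 F z0)) * ∫ y, (if ∑ e, (√(s - t0) *
        dd x s F D e (z0 + √(s - t0) • y)) ^ 2 ≤ l ^ 2 * (s - t0) then
          Real.exp (lam * uu x s F (z0 + √(s - t0) • y)) else 0) ∂(gI κ) := by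
    rw [← integral_const_mul]
    refine integral_mono_of_nonneg (Filter.Eventually.of_forall fun y => ?_) ?_
      (Filter.Eventually.of_forall fun y => ?_)
    · simp only [Pi.zero_apply]
      split_ifs
      · exact (Real.exp_pos _).le
      · exact le_rfl
    · refine Integrable.const_mul ?_ _
      have hA : MeasurableSet {y : κ → ℝ | ∑ e, (√(s - t0) *
          dd x s F D e (z0 + √(s - t0) • y)) ^ 2 ≤ l ^ 2 * (s - t0)} :=
        measurableSet_le (Finset.measurable_sum _ fun e _ => (hU.meas e).pow_const 2)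
          measurable_const
      refine ((hU.eg_exp lam).integrable.indicator hA).congr
        (Filter.Eventually.of_forall fun y => ?_)
      rw [Set.indicator_apply]
      rfl
    · simp only
      by_cases hy : sq x s F D (z0 + √(s - t0) • y) ≤ l ^ 2
      · have hy' : ∑ e, (√(s - t0) * dd x s F D e (z0 + √(s - t0) • y)) ^ 2 ≤
            l ^ 2 * (s - t0) := by
          rw [e1, mul_comm]
          exact mul_le_mul_of_nonneg_right hy hst
        rw [if_pos hy, if_pos hy', ← Real.exp_add]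
        refine le_of_eq ?_
        congr 1
        ring
      · rw [if_neg hy]
        split_ifs
        · positivity
        · simp
  refine h2.trans ?_
  have h3 := mul_le_mul_of_nonneg_left h1 (Real.exp_pos (-(lam * uu x t0 F z0))).le
  refine h3.trans ?_
  have h4 : lam * ∫ y, uu x s F (z0 + √(s - t0) • y) ∂(gI κ) ≤ lam * uu x t0 F z0 :=
    mul_le_mul_of_nonneg_left (uu_jensen h hx h01 hs z0) hlam
  rw [← Real.exp_add, ← Real.exp_add, Real.exp_le_exp]
  nlinarith

end Vale.Agent.P146.R1
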