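import Vale.Agent.P146.H332.CFlip
import Vale.Agent.P146.H826.LawP
import Vale.Agent.P146.H712.RowQ

/-!
Plan R1, block C: the Poincare inequality for averages over a set of couplings at a position, and
the bound `ee ≤ s k² E_y |C|²` for the clean column of `b`.
-/

open MeasureTheory ProbabilityTheory

namespace Vale.Agent.P146.R1C

open Vale.Agent.P157.Lv Vale.Agent.P146.H425 Vale.Agent.P146.H325 Vale.Agent.P146.H332
  Vale.Agent.P146.H712 Vale.Agent.P146.R1 Matrix

set_option linter.unusedSectionVars false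

section gen

variable {κ : Type} [Fintype κ] [DecidableEq κ] {s : ℝ} {R : Finset κ}

lemma eg_scale {f : (κ → ℝ) → ℝ} (hf : EG f) (s : ℝ) (R : Finset κ) :
    EG fun y => f (sw R y (√s • y)) := by
  refine eg_comp hf (A := fun y : κ → ℝ => sw R y (√s • y)) ?_ (c := 1 + √s) (by positivity)
    fun w => ?_
  · refine measurable_pi_lambda _ fun e => ?_
    unfold sw
    split_ifs
    · simp only [Pi.smul_apply]
      fun_prop
    · fun_prop
  · refine (norm_sw_le _ _ _).trans ?_
    have h5 := norm_smul_le' (Real.sqrt_nonneg s) w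
    linarith

lemma pd_scale {f f' : (κ → ℝ) → ℝ} {e : κ} (he : e ∈ R) (hd : PD e f f') (s : ℝ) :
    PD e (fun y => f (sw R y (√s • y))) (fun y => √s * f' (sw R y (√s • y))) := by
  intro y x
  have e1 : ∀ t, sw R (Function.update y e t) (√s • Function.update y e t) =
      Function.update (sw R y (√s • y)) e (√s * t) := by
    intro t
    funext j
    by_cases hj : j = e
    · subst hj
      simp [sw, he]
    · by_cases hR : j ∈ R <;> simp [sw, hR, hj]
  simp only [e1]
  have h3 := hd (sw R y (√s • y)) (√s * x)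
  have h4 : HasDerivAt (fun t : ℝ => √s * t) (√s) x := by
    simpa using (hasDerivAt_id x).const_mul (√s)
  exact (h3.comp x h4).congr_deriv (mul_comm _ _)

/-- **The Poincare inequality for `AvP`.** -/
theorem AvP_poincare (hs : 0 ≤ s) {F : (κ → ℝ) → ℝ} {F' : κ → (κ → ℝ) → ℝ} (hF : EG F)
    (hd : ∀ e ∈ R, PD e F (F' e)) (hF' : ∀ e ∈ R, EG (F' e)) (z : κ → ℝ) :
    AvP s R (fun z => F z ^ 2) z ≤
      AvP s R F z ^ 2 + s * AvP s R (fun z => ∑ e ∈ R, F' e z ^ 2) z := by
  have h1 := Av_poincare (R := R) (F := fun y => F (sw R y (√s • y)))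
    (F' := fun e y => √s * F' e (sw R y (√s • y))) (eg_scale hF s R)
    (fun e he => pd_scale he (hd e he) s)
    (fun e he => (eg_scale (hF' e he) s R).const_mul _) z
  rw [Av_var (eg_scale hF s R)] at h1
  have e2 : ∀ e ∈ R, Av R (fun y => (√s * F' e (sw R y (√s • y))) ^ 2) z =
      s * AvP s R (fun z => F' e z ^ 2) z := by
    intro e _
    rw [AvP_eq, ← Av_const_mul]
    refine Av_congr (fun y => ?_) z
    rw [mul_pow, Real.sq_sqrt hs]
  rw [Finset.sum_congr rfl e2, ← Finset.mul_sum] at h1
  rw [AvP_sum R fun e he => (hF' e he).pow 2]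
  have e3 : AvP s R F z = Av R (fun y => F (sw R y (√s • y))) z := by rw [AvP_eq]
  have e4 : AvP s R (fun z => F z ^ 2) z = Av R (fun y => F (sw R y (√s • y)) ^ 2) z := by
    rw [AvP_eq]
  rw [e3, e4]
  linarith

end gen

variable {n : ℕ}

lemma AvP_odd0 {s : ℝ} (b : Fin n) {f : (Pair n → ℝ) → ℝ} (hf : Measurable f)
    (ho : ∀ z, f (fl b z) = -f z) (z : Pair n → ℝ) : AvP s (row b) f z = 0 := by
  have h1 : AvP s (row b) f (fl b z) = -AvP s (row b) f z := by
    rw [AvP_fl b b hf]
    unfold AvP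
    rw [← integral_neg]
    exact integral_congr_ae (Filter.Eventually.of_forall fun g => ho _)
  have h2 : AvP s (row b) f (fl b z) = AvP s (row b) f z := by
    unfold AvP
    refine integral_congr_ae (Filter.Eventually.of_forall fun g => ?_)
    have e1 : sw (row b) (fl b z) (√s • g) = sw (row b) z (√s • g) := by
      funext e
      by_cases he : e ∈ row b
      · simp [sw, he]
      · simp [sw, he, fl_not he]
    simp only [e1]
  linarith

/-- **The size of the clean column**, for general matrix functions of the position. -/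
theorem ee_gen {s k : ℝ} (hs : 0 ≤ s) {A : (Pair n → ℝ) → Matrix (Fin n) (Fin n) ℝ}
    {DA : Pair n → (Pair n → ℝ) → Matrix (Fin n) (Fin n) ℝ} (hA : ∀ i j, EG fun z => A z i j)
    (hd : ∀ e i j, PD e (fun z => A z i j) (fun z => DA e z i j))
    (hDA : ∀ e i j, EG fun z => DA e z i j)
    (hfl : ∀ {b p : Fin n}, p ≠ b → ∀ z, A (fl b z) p b = -A z p b)
    (hrow : ∀ (b : Fin n) z, ∑ e ∈ row b, ∑ i, DA e z i b ^ 2 ≤ k ^ 2 * fr (A z))
    (b b' : Fin n) (z : Pair n → ℝ) :
    AvP s (row b ∪ row b') (fun z => ∑ i, (if i = b ∨ i = b' then 0 else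
      AvP s (row b') (fun z => A z i b) z) ^ 2) z ≤
      s * k ^ 2 * AvP s (row b ∪ row b') (fun z => fr (A z)) z := by
  have hS : EG fun z => ∑ i ∈ Finset.univ.erase b, A z i b ^ 2 :=
    EG.sum _ fun i _ => (hA i b).pow 2
  have hfr : EG fun z => fr (A z) := by
    unfold fr
    exact EG.sum _ fun i _ => EG.sum _ fun j _ => (hA i j).pow 2
  -- Jensen
  have h1 : ∀ z, ∑ i, (if i = b ∨ i = b' then 0 else
      AvP s (row b') (fun z => A z i b) z) ^ 2 ≤
      AvP s (row b') (fun z => ∑ i ∈ Finset.univ.erase b, A z i b ^ 2) z := by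
    intro z
    rw [AvP_sum _ fun i _ => (hA i b).pow 2]
    have h2 : ∀ i, (if i = b ∨ i = b' then 0 else
        AvP s (row b') (fun z => A z i b) z) ^ 2 ≤
        if i = b then 0 else AvP s (row b') (fun z => A z i b ^ 2) z := by
      intro i
      have h3 := AvP_sq_le (s := s) (R := row b') (hA i b) z
      have h4 : 0 ≤ AvP s (row b') (fun z => A z i b ^ 2) z := AvP_nonneg (fun _ => sq_nonneg _) z
      by_cases hi : i = b
      · simp [hi]
      · by_cases hi' : i = b'
        · simp only [hi', or_true, if_true]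
          split_ifs
          · norm_num
          · rw [hi'] at h4
            linarith
        · simp only [hi, hi', or_self, if_false]
          exact h3
    refine (Finset.sum_le_sum fun i _ => h2 i).trans (le_of_eq ?_)
    rw [← Finset.add_sum_erase _ _ (Finset.mem_univ b)]
    simp only [if_true, zero_add]
    refine Finset.sum_congr rfl fun i hi => ?_
    rw [if_neg (Finset.ne_of_mem_erase hi)]
  have hL : EG fun z => ∑ i, (if i = b ∨ i = b' then 0 else
      AvP s (row b') (fun z => A z i b) z) ^ 2 := by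
    refine EG.sum _ fun i _ => EG.pow ?_ 2
    by_cases hi : i = b ∨ i = b'
    · simp only [hi, if_true]
      exact EG.const 0
    · simp only [hi, if_false]
      exact eg_AvP (hA i b) s (row b')
  refine (AvP_mono hL (eg_AvP hS s (row b')) h1 z).trans ?_
  rw [AvP_AvP hS, Finset.union_assoc, Finset.union_self, Finset.union_comm, ← AvP_AvP hS,
    ← AvP_AvP hfr, ← AvP_const_mul]
  refine AvP_mono (eg_AvP hS s (row b)) ((eg_AvP hfr s (row b)).const_mul _) (fun z => ?_) z
  rw [AvP_sum _ fun i _ => (hA i b).pow 2]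
  have h5 : ∀ i ∈ Finset.univ.erase b, AvP s (row b) (fun z => A z i b ^ 2) z ≤
      s * AvP s (row b) (fun z => ∑ e ∈ row b, DA e z i b ^ 2) z := by
    intro i hi
    have h6 := AvP_poincare (R := row b) hs (hA i b) (fun e _ => hd e i b) (fun e _ => hDA e i b) z
    have h7 : AvP s (row b) (fun z => A z i b) z = 0 :=
      AvP_odd0 b (hA i b).meas (hfl (Finset.ne_of_mem_erase hi)) z
    rw [h7] at h6
    linarith
  refine (Finset.sum_le_sum h5).trans ?_
  have hE : ∀ i, EG fun z => ∑ e ∈ row b, DA e z i b ^ 2 := fun i =>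
    EG.sum _ fun e _ => (hDA e i b).pow 2
  rw [← Finset.mul_sum, mul_assoc]
  refine mul_le_mul_of_nonneg_left ?_ hs
  rw [← AvP_sum _ fun i _ => hE i, ← AvP_const_mul]
  refine AvP_mono (EG.sum _ fun i _ => hE i) (hfr.const_mul _) (fun z => ?_) z
  refine le_trans ?_ (hrow b z)
  rw [Finset.sum_comm]
  refine Finset.sum_le_sum fun e _ => ?_
  exact Finset.sum_le_sum_of_subset_of_nonneg (Finset.erase_subset _ _)
    fun i _ _ => sq_nonneg _

/-- **`ee ≤ s k² E_y |C|²`.** -/
theorem ee_le {k x s : ℝ} (hs : 0 < s) (hx : 0 ≤ x) (hx1 : x ≤ 1) (b b' : Fin n)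
    (z : Pair n → ℝ) :
    ee k x s b b' z ≤ s * k ^ 2 * AvP s (row b ∪ row b') (fun z => fr (AA k x s z)) z :=
  ee_gen hs.le (A := fun z => AA k x s z) (DA := fun e z => DC k x s e z)
    (fun i j => eg_AA' i j) (fun e i j => pd_AA e i j) (fun e i j => eg_DC hx e i j)
    (fun hp z => AA_fl_row hp z) (fun b z => row_grad hs hx hx1 b z) b b' z

end Vale.Agent.P146.R1C
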