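import Vale.Agent.P146.H327.Sa

/-!
The tilt of the value function: `L(θ) = log E_x exp (θ x ξ)` is at most `θ x² G(2x)`, at least
`θ (x²/2) (t1 - t0) Q(t0)`, and under `P_θ` the variable `x ξ` is at least half of its
`P_x`-mean up to an exponentially small probability.
-/

open MeasureTheory ProbabilityTheory

namespace Vale.Agent.P146.R1

open Vale.Agent.P157.Lv Vale.Agent.P146.H425 Vale.Agent.P146.H327

set_option linter.unusedSectionVars false

variable {κ : Type} [Fintype κ] {F : (κ → ℝ) → ℝ} {D : κ → (κ → ℝ) → ℝ}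
  {B L x θ t0 t1 s t m l X : ℝ} {Ψ : (κ → ℝ) → (κ → ℝ) → (κ → ℝ) → ℝ}

/-- Hölder for exponents, by the convexity of the exponential -/
lemma hold {q g : (κ → ℝ) → ℝ} {θ γ : ℝ} (hq : Integrable q (gI κ)) (hq0 : ∀ z, 0 ≤ q z)
    (hg : Integrable (fun z => q z * Real.exp (g z)) (gI κ))
    (ht : Integrable (fun z => q z * Real.exp (θ * g z)) (gI κ)) (h0 : 0 ≤ θ) (h1 : θ ≤ 1)
    (h : ∫ z, q z * Real.exp (g z) ∂(gI κ) ≤ Real.exp γ * ∫ z, q z ∂(gI κ)) :
    ∫ z, q z * Real.exp (θ * g z) ∂(gI κ) ≤ Real.exp (θ * γ) * ∫ z, q z ∂(gI κ) := by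
  have hpt : ∀ z, q z * Real.exp (θ * g z) ≤
      Real.exp (θ * γ) * (1 - θ) * q z + Real.exp (θ * γ) * θ * Real.exp (-γ) *
        (q z * Real.exp (g z)) := by
    intro z
    have h2 := convexOn_exp.2 (Set.mem_univ (g z - γ)) (Set.mem_univ (0 : ℝ)) h0
      (by linarith : 0 ≤ 1 - θ) (by ring)
    simp only [smul_eq_mul, mul_zero, add_zero, Real.exp_zero, mul_one] at h2
    have e1 : Real.exp (θ * g z) = Real.exp (θ * γ) * Real.exp (θ * (g z - γ)) := by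
      rw [← Real.exp_add]; congr 1; ring
    have e2 : Real.exp (g z - γ) = Real.exp (-γ) * Real.exp (g z) := by
      rw [← Real.exp_add]; congr 1; ring
    rw [e2] at h2
    have h3 := mul_le_mul_of_nonneg_left h2 (mul_nonneg (hq0 z) (Real.exp_pos (θ * γ)).le)
    rw [e1]
    nlinarith [h3]
  have h4 := integral_mono ht ((hq.const_mul (Real.exp (θ * γ) * (1 - θ))).add
    (hg.const_mul (Real.exp (θ * γ) * θ * Real.exp (-γ)))) hpt
  have h5 : ∫ z, (Real.exp (θ * γ) * (1 - θ) * q z + Real.exp (θ * γ) * θ * Real.exp (-γ) *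
        (q z * Real.exp (g z))) ∂(gI κ) = Real.exp (θ * γ) * (1 - θ) * ∫ z, q z ∂(gI κ) +
      Real.exp (θ * γ) * θ * Real.exp (-γ) * ∫ z, q z * Real.exp (g z) ∂(gI κ) := by
    rw [integral_add (hq.const_mul _) (hg.const_mul _), integral_const_mul, integral_const_mul]
  have h6 : ∫ z, q z * Real.exp (θ * g z) ∂(gI κ) ≤
      Real.exp (θ * γ) * (1 - θ) * ∫ z, q z ∂(gI κ) +
      Real.exp (θ * γ) * θ * Real.exp (-γ) * ∫ z, q z * Real.exp (g z) ∂(gI κ) := by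
    rw [← h5]; exact h4
  have h7 : Real.exp (θ * γ) * θ * Real.exp (-γ) * ∫ z, q z * Real.exp (g z) ∂(gI κ) ≤
      Real.exp (θ * γ) * θ * Real.exp (-γ) * (Real.exp γ * ∫ z, q z ∂(gI κ)) :=
    mul_le_mul_of_nonneg_left h (by positivity)
  have e3 : Real.exp (θ * γ) * θ * Real.exp (-γ) * (Real.exp γ * ∫ z, q z ∂(gI κ)) =
      Real.exp (θ * γ) * θ * ∫ z, q z ∂(gI κ) := by
    have : Real.exp (-γ) * Real.exp γ = 1 := by rw [← Real.exp_add]; simp
    linear_combination (Real.exp (θ * γ) * θ * ∫ z, q z ∂(gI κ)) * this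
  rw [e3] at h7
  linarith

/-- the value function is nondecreasing in the exponent (factor 2) -/
lemma uu_two (h : C11 F D B L) (hc : Cv F) (hx : 0 < x) (t : ℝ) (z : κ → ℝ) :
    uu x t F z ≤ uu (2 * x) t F z := by
  have h1 := W_two_ge (b := √(1 - t)) h hc hx z
  have h2 : 0 ≤ G2 x (√(1 - t)) F D z := Finset.sum_nonneg fun e _ => sq_nonneg _
  have h3 : 0 ≤ x / 2 * (√(1 - t) ^ 2 * G2 x (√(1 - t)) F D z) := by positivity
  unfold uu
  linarith

lemma int_two (h : C11 F D B L) (hc : Cv F) (hx : 0 < x) (h01 : t0 ≤ t1) (h1 : t1 ≤ 1)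
    (z : κ → ℝ) : ∫ y, Real.exp (2 * x * uu x t1 F (z + √(t1 - t0) • y)) ∂(gI κ) ≤
      Real.exp (2 * x * uu (2 * x) t0 F z) := by
  have hx2 : 0 < 2 * x := by positivity
  rw [← uu_step h hx2 h01 h1 z]
  refine integral_mono (EG.add_smul ((c11_uu h hx t1).eg_exp (2 * x)) z _).integrable
    (EG.add_smul ((c11_uu h hx2 t1).eg_exp (2 * x)) z _).integrable fun y => ?_
  simp only
  refine Real.exp_le_exp.2 (mul_le_mul_of_nonneg_left (uu_two h hc hx t1 _) hx2.le)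

lemma eg_inner (h : C11 F D B L) (hx : 0 < x) (a : ℝ) (z : κ → ℝ) (r : ℝ) :
    EG fun y => Real.exp (a * uu x t1 F (z + r • y)) :=
  EG.add_smul ((c11_uu h hx t1).eg_exp a) z r

/-- The conditional exponential moment of `x ξ`. -/
lemma inner_le (h : C11 F D B L) (hc : Cv F) (hx : 0 < x) (h01 : t0 ≤ t1) (h1 : t1 ≤ 1)
    (hθ : 0 ≤ θ) (hθ1 : θ ≤ 1) (z : κ → ℝ) :
    ∫ y, Real.exp (x * uu x t1 F (z + √(t1 - t0) • y) +
      θ * xi x t0 t1 F z (z + √(t1 - t0) • y)) ∂(gI κ) ≤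
      Real.exp (x * uu x t0 F z) *
        Real.exp (θ * (2 * x * (uu (2 * x) t0 F z - uu x t0 F z))) := by
  set u0 := uu x t0 F z with hu0
  set q : (κ → ℝ) → ℝ := fun y => Real.exp (x * uu x t1 F (z + √(t1 - t0) • y)) with hq
  set g : (κ → ℝ) → ℝ := fun y => xi x t0 t1 F z (z + √(t1 - t0) • y) with hg
  have hqi : ∫ y, q y ∂(gI κ) = Real.exp (x * u0) := uu_step h hx h01 h1 z
  have eg : ∀ c : ℝ, (fun y => q y * Real.exp (c * g y)) = fun y => Real.exp (-(c * (x * u0))) *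
      Real.exp ((x + c * x) * uu x t1 F (z + √(t1 - t0) • y)) := by
    intro c
    funext y
    rw [hq, hg]
    simp only [xi]
    rw [← Real.exp_add, ← Real.exp_add, ← hu0]
    congr 1
    ring
  have i0 : ∀ c : ℝ, Integrable (fun y => q y * Real.exp (c * g y)) (gI κ) := by
    intro c
    rw [eg]
    exact (eg_inner h hx _ z _).integrable.const_mul _
  have i1 : Integrable (fun y => q y * Real.exp (g y)) (gI κ) := by simpa using i0 1
  have hb : ∫ y, q y * Real.exp (g y) ∂(gI κ) ≤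
      Real.exp (2 * x * (uu (2 * x) t0 F z - u0)) * ∫ y, q y ∂(gI κ) := by
    have e1 := eg 1
    simp only [one_mul] at e1
    rw [e1, integral_const_mul, hqi]
    have h2 := int_two h hc hx h01 h1 z
    have e2 : x + x = 2 * x := by ring
    rw [e2]
    refine (mul_le_mul_of_nonneg_left h2 (Real.exp_pos _).le).trans (le_of_eq ?_)
    rw [← Real.exp_add, ← Real.exp_add]
    congr 1
    ring
  have h3 := hold (EG.integrable (eg_inner h hx x z _)) (fun y => (Real.exp_pos _).le) i1 (i0 θ)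
    hθ hθ1 hb
  have h4 : ∫ z, q z ∂(gI κ) = Real.exp (x * u0) := hqi
  rw [h4] at h3
  rw [mul_comm (Real.exp (x * u0))]
  refine le_trans (le_of_eq ?_) h3
  refine integral_congr_ae (Filter.Eventually.of_forall fun y => ?_)
  exact Real.exp_add _ _

lemma int_exp_pos' (h : C11 F D B L) (hx : 0 < x) : 0 < ∫ z, Real.exp (x * F z) ∂(gI κ) :=
  integral_exp_pos (h.eg_exp x).integrable

lemma int_exp_eq (h : C11 F D B L) (hx : 0 < x) :
    ∫ z, Real.exp (x * F z) ∂(gI κ) = Real.exp (x * phi x F) := by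
  rw [← log_int_exp h hx, Real.exp_log (int_exp_pos' h hx)]

lemma int_u0 (h : C11 F D B L) (hx : 0 < x) (h0 : 0 ≤ t0) (h1 : t0 ≤ 1) :
    ∫ y, Real.exp (x * uu x t0 F (√t0 • y)) ∂(gI κ) = Real.exp (x * phi x F) := by
  rw [← int_exp_eq h hx]
  exact Nm_one h hx (by rw [Real.sq_sqrt h0, Real.sq_sqrt (by linarith)]; ring)

/-- **(T1), upper half.** -/
theorem Lth_le (h : C11 F D B L) (hc : Cv F) (hx : 0 < x) (h0 : 0 ≤ t0) (h01 : t0 ≤ t1)
    (h1 : t1 ≤ 1) (hθ : 0 ≤ θ) (hθ1 : θ ≤ 1 / 2) :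
    Lth x θ t0 t1 F ≤ 2 * θ * (x * (phi (2 * x) F - phi x F)) := by
  have hx2 : 0 < 2 * x := by positivity
  have e1 := Eu_fst (θ := θ) (t0 := t0) (s := t1) (ψ := fun _ _ => (1 : ℝ)) h hx (E3.const 1)
    le_rfl h1
  simp only [mul_one] at e1
  have i0 : EG fun y : κ → ℝ => Real.exp (x * uu x t0 F (√t0 • y)) :=
    EG.smul' ((c11_uu h hx t0).eg_exp x) _
  have lip0 : Lip fun y : κ → ℝ => uu x t0 F (√t0 • y) := by
    have := (c11_uu h hx t0).lip.lip_smul h.B0 0 (√t0)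
    simpa using this
  have lip2 : Lip fun y : κ → ℝ => uu (2 * x) t0 F (√t0 • y) := by
    have := (c11_uu h hx2 t0).lip.lip_smul h.B0 0 (√t0)
    simpa using this
  have i2 : ∀ c : ℝ, EG fun y : κ → ℝ => Real.exp (x * uu x t0 F (√t0 • y)) *
      Real.exp (c * (x * (uu (2 * x) t0 F (√t0 • y) - uu x t0 F (√t0 • y)))) := by
    intro c
    have h3 := i0.mul (((lip2.add (lip0.const_mul (-1))).const_mul x).exp_eg c)
    have e : (fun y : κ → ℝ => Real.exp (x * uu x t0 F (√t0 • y)) *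
        Real.exp (c * (x * (uu (2 * x) t0 F (√t0 • y) - uu x t0 F (√t0 • y))))) =
        fun y => Real.exp (x * uu x t0 F (√t0 • y)) *
        Real.exp (c * (x * (uu (2 * x) t0 F (√t0 • y) + -1 * uu x t0 F (√t0 • y)))) := by
      funext y
      congr 2
      ring
    rw [e]
    exact h3
  have a1 : Eu x θ t0 t1 t1 F (fun _ _ _ => 1) ≤ ∫ y0,
      Real.exp (x * uu x t0 F (√t0 • y0)) *
        Real.exp (2 * θ * (x * (uu (2 * x) t0 F (√t0 • y0) - uu x t0 F (√t0 • y0)))) ∂(gI κ) := by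
    rw [e1]
    refine integral_mono_of_nonneg (Filter.Eventually.of_forall fun y =>
      integral_nonneg fun z => (Real.exp_pos _).le) (i2 (2 * θ)).integrable
      (Filter.Eventually.of_forall fun y => ?_)
    refine (inner_le h hc hx h01 h1 hθ (by linarith) _).trans (le_of_eq ?_)
    simp only
    congr 2
    ring
  have a2 := hold (q := fun y => Real.exp (x * uu x t0 F (√t0 • y)))
    (g := fun y => x * (uu (2 * x) t0 F (√t0 • y) - uu x t0 F (√t0 • y))) (θ := 2 * θ)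
    (γ := x * (phi (2 * x) F - phi x F))
    i0.integrable (fun y => (Real.exp_pos _).le) (by simpa using (i2 1).integrable)
    (i2 (2 * θ)).integrable (by linarith) (by linarith) ?_
  · rw [int_u0 h hx h0 (h01.trans h1)] at a2
    unfold Lth
    rw [log_int_exp h hx]
    have a3 := Real.log_le_log (Eu_one_pos h hx) (a1.trans a2)
    rw [← Real.exp_add, Real.log_exp] at a3
    linarith
  · have e2 : (fun y : κ → ℝ => Real.exp (x * uu x t0 F (√t0 • y)) *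
        Real.exp (x * (uu (2 * x) t0 F (√t0 • y) - uu x t0 F (√t0 • y)))) =
        fun y => Real.exp (x * W (2 * x) (√(1 - t0)) F (√t0 • y)) := by
      funext y
      rw [← Real.exp_add]
      congr 1
      unfold uu
      ring
    rw [int_u0 h hx h0 (h01.trans h1), e2]
    have := int_exp_two h hx (a := √t0) (b := √(1 - t0))
      (by rw [Real.sq_sqrt h0, Real.sq_sqrt (by linarith)]; ring)
    refine this.trans (le_of_eq ?_)
    rw [← Real.exp_add]
    congr 1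
    unfold phi
    ring

theorem Lth_le_GG (h : C11 F D B L) (hc : Cv F) (hx : 0 < x) (h0 : 0 ≤ t0) (h01 : t0 ≤ t1)
    (h1 : t1 ≤ 1) (hθ : 0 ≤ θ) (hθ1 : θ ≤ 1 / 2) :
    Lth x θ t0 t1 F ≤ θ * (x ^ 2 * GG (2 * x) F D) := by
  refine (Lth_le h hc hx h0 h01 h1 hθ hθ1).trans ?_
  have h2 := phi_two_le h hc hx
  have h3 : 2 * θ * (x * (phi (2 * x) F - phi x F)) ≤ 2 * θ * (x * (x / 2 * GG (2 * x) F D)) := by
    unfold phi GG
    gcongr
  refine h3.trans (le_of_eq ?_)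
  ring

/-! ### the mean of `x ξ` -/

/-- the squared gradient of one step of the value function -/
lemma G2_step (h : C11 F D B L) (hx : 0 < x) (h01 : t0 ≤ t1) (h1 : t1 ≤ 1) (z : κ → ℝ) :
    G2 x (√(t1 - t0)) (uu x t1 F) (dd x t1 F D) z = sq x t0 F D z := by
  unfold G2 sq G2
  refine Finset.sum_congr rfl fun e _ => ?_
  have := DW_step h hx (s := √(t1 - t0)) (b' := √(1 - t1)) (b := √(1 - t0))
    (by rw [Real.sq_sqrt (by linarith), Real.sq_sqrt (by linarith), Real.sq_sqrt (by linarith)]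
        ring) e z
  rw [this]
  rfl

/-- The conditional mean of `x ξ`. -/
lemma inner_xi (h : C11 F D B L) (hx : 0 < x) (h01 : t0 ≤ t1) (h1 : t1 ≤ 1) (z : κ → ℝ) :
    Real.exp (x * uu x t0 F z) * (x ^ 2 / 2 * ((t1 - t0) * sq x t0 F D z)) ≤
      ∫ y, Real.exp (x * uu x t1 F (z + √(t1 - t0) • y)) *
        xi x t0 t1 F z (z + √(t1 - t0) • y) ∂(gI κ) := by
  have hU := c11_uu h hx t1
  have hk := KL_shift_ge (b := √(t1 - t0)) hU hx z
  rw [G2_step h hx h01 h1, Real.sq_sqrt (by linarith)] at hk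
  unfold KL at hk
  rw [uu_step h hx h01 h1 z, Real.log_exp] at hk
  have hE := Real.exp_pos (x * uu x t0 F z)
  set E0 := Real.exp (x * uu x t0 F z) with hE0
  set I1 := ∫ y, Real.exp (x * uu x t1 F (z + √(t1 - t0) • y)) *
    uu x t1 F (z + √(t1 - t0) • y) ∂(gI κ) with hI1
  have e1 : ∫ y, Real.exp (x * uu x t1 F (z + √(t1 - t0) • y)) *
        xi x t0 t1 F z (z + √(t1 - t0) • y) ∂(gI κ) = x * I1 - x * uu x t0 F z * E0 := by
    have i1 : Integrable (fun y => Real.exp (x * uu x t1 F (z + √(t1 - t0) • y)) *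
        uu x t1 F (z + √(t1 - t0) • y)) (gI κ) :=
      (EG.add_smul ((hU.eg_exp x).mul hU.eg) z _).integrable
    have i2 := (eg_inner (t1 := t1) h hx x z (√(t1 - t0))).integrable
    rw [hI1, hE0, ← uu_step h hx h01 h1 z, ← integral_const_mul, ← integral_const_mul,
      ← integral_sub (i1.const_mul _) (i2.const_mul _)]
    refine integral_congr_ae (Filter.Eventually.of_forall fun y => ?_)
    simp only [xi]
    ring
  rw [e1]
  have h2 := mul_le_mul_of_nonneg_left hk hE.le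
  refine h2.trans (le_of_eq ?_)
  field_simp

/-- **The mean of `x ξ` under `P_x`.** -/
theorem Ex_xi_ge (h : C11 F D B L) (hx : 0 < x) (h0 : 0 ≤ t0) (h01 : t0 ≤ t1) (h1 : t1 ≤ s)
    (hs : s ≤ 1) : x ^ 2 / 2 * (t1 - t0) * Phi x F D t0 ≤
      Et x 0 t0 t1 s F (fun z0 z1 _ => xi x t0 t1 F z0 z1) := by
  have h1' : t1 ≤ 1 := h1.trans hs
  have hU := c11_uu h hx t1
  have hU0 := c11_uu h hx t0
  unfold Et
  rw [Eu_zero_one h hx h0 h01 h1 hs, Eu_fst h hx (e3_xi h hx t0 t1) h1 hs]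
  simp only [zero_mul, add_zero]
  rw [Phi, ← mul_div_assoc]
  refine div_le_div_of_nonneg_right ?_ (int_exp_pos' h hx).le
  unfold Nm
  rw [← integral_const_mul]
  have hG : EG fun z : κ → ℝ => Real.exp (x * uu x t0 F z) * (x ^ 2 / 2 * ((t1 - t0) *
      sq x t0 F D z)) := (hU0.eg_exp x).mul (((eg_sq h hx t0).const_mul _).const_mul _)
  -- the inner integral as a function of the position
  set I : (κ → ℝ) → ℝ := fun z => ∫ y, Real.exp (x * uu x t1 F (z + √(t1 - t0) • y)) *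
        xi x t0 t1 F z (z + √(t1 - t0) • y) ∂(gI κ) with hI
  have hIe : EG I := by
    have e1 : I = fun z => x * (∫ y, Real.exp (x * uu x t1 F (z + √(t1 - t0) • y)) *
        uu x t1 F (z + √(t1 - t0) • y) ∂(gI κ)) - x * (uu x t0 F z *
        Real.exp (x * uu x t0 F z)) := by
      funext z
      have i1 : Integrable (fun y => Real.exp (x * uu x t1 F (z + √(t1 - t0) • y)) *
          uu x t1 F (z + √(t1 - t0) • y)) (gI κ) :=
        (EG.add_smul ((hU.eg_exp x).mul hU.eg) z _).integrable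
      have i2 := (eg_inner (t1 := t1) h hx x z (√(t1 - t0))).integrable
      rw [hI]
      simp only
      rw [← uu_step h hx h01 h1' z, ← integral_const_mul, ← integral_const_mul,
        ← integral_const_mul, ← integral_sub (i1.const_mul _) ((i2.const_mul _).const_mul _)]
      refine integral_congr_ae (Filter.Eventually.of_forall fun y => ?_)
      simp only [xi]
      ring
    rw [e1]
    exact ((EG.conv ((hU.eg_exp x).mul hU.eg) _).const_mul x).sub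
      ((hU0.eg.mul (hU0.eg_exp x)).const_mul x)
  refine integral_mono (((EG.smul' ((hU0.eg_exp x).mul (eg_sq h hx t0)) (√t0)).const_mul
    _).integrable) (EG.smul' hIe (√t0)).integrable fun y => ?_
  simp only
  refine le_trans (le_of_eq ?_) (inner_xi h hx h01 h1' (√t0 • y))
  simp only [uu, sq]
  ring

theorem Lth_ge (h : C11 F D B L) (hx : 0 < x) (h0 : 0 ≤ t0) (h01 : t0 ≤ t1)
    (h1 : t1 ≤ 1) (hθ : 0 ≤ θ) :
    θ * (x ^ 2 / 2 * (t1 - t0) * Phi x F D t0) ≤ Lth x θ t0 t1 F := by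
  have h2 := Et_jensen (θ := 0) (t0 := t0) (t1 := t1) (s := t1) h hx
    ((e3_xi h hx t0 t1).const_mul θ) (e3_exp_xi h hx t0 t1 θ)
  rw [Et_exp_xi h hx h0 h01 le_rfl h1, Et_const_mul, Real.exp_le_exp] at h2
  exact (mul_le_mul_of_nonneg_left (Ex_xi_ge h hx h0 h01 le_rfl h1) hθ).trans h2

lemma Phi_nonneg (h : C11 F D B L) (hx : 0 < x) : 0 ≤ Phi x F D t :=
  div_nonneg (integral_nonneg fun z => mul_nonneg (Real.exp_pos _).le
    (Finset.sum_nonneg fun _ _ => sq_nonneg _)) (int_exp_pos' h hx).le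

/-- **(T1), lower half.** -/
theorem Lth_nonneg (h : C11 F D B L) (hx : 0 < x) (h0 : 0 ≤ t0) (h01 : t0 ≤ t1)
    (h1 : t1 ≤ 1) (hθ : 0 ≤ θ) : 0 ≤ Lth x θ t0 t1 F := by
  refine le_trans ?_ (Lth_ge (D := D) h hx h0 h01 h1 hθ)
  have := Phi_nonneg (t := t0) h hx
  have : 0 ≤ t1 - t0 := by linarith
  positivity

lemma Lth_half (h : C11 F D B L) (hx : 0 < x) (h0 : 0 ≤ t0) (h01 : t0 ≤ t1)
    (h1 : t1 ≤ 1) : 2 * Lth x (θ / 2) t0 t1 F ≤ Lth x θ t0 t1 F := by
  have h2 := Et_cs (θ := 0) (t0 := t0) (t1 := t1) (s := t1) h hx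
    (e3_exp_xi h hx t0 t1 (θ / 2)) (E3.const 1)
  simp only [mul_one, one_pow] at h2
  rw [Et_const h hx, mul_one, Et_exp_xi h hx h0 h01 le_rfl h1] at h2
  have e : (fun (z0 z1 _ : κ → ℝ) => Real.exp (θ / 2 * xi x t0 t1 F z0 z1) ^ 2) =
      fun z0 z1 _ => Real.exp (θ * xi x t0 t1 F z0 z1) := by
    funext z0 z1 _
    rw [← Real.exp_nat_mul]
    congr 1
    push_cast
    ring
  rw [e, Et_exp_xi h hx h0 h01 le_rfl h1, ← Real.exp_nat_mul, Real.exp_le_exp] at h2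
  push_cast at h2
  exact h2

/-- **(T2).** Under `P_θ` the variable `x ξ` is at least half of a lower bound of its
`P_x`-mean, up to an exponentially small probability. -/
theorem Et_xi_low (h : C11 F D B L) (hx : 0 < x) (h0 : 0 ≤ t0) (h01 : t0 ≤ t1)
    (h1 : t1 ≤ s) (hs : s ≤ 1) (hθ : 0 ≤ θ) (hm : m ≤ x ^ 2 / 2 * (t1 - t0) * Phi x F D t0)
    (hΨ : E3 Ψ) (hΨ0 : ∀ z0 z1 z2, 0 ≤ Ψ z0 z1 z2) (hΨ1 : ∀ z0 z1 z2, Ψ z0 z1 z2 ≤ 1)
    (hev : ∀ z0 z1 z2, Ψ z0 z1 z2 ≠ 0 → xi x t0 t1 F z0 z1 ≤ m / 2) :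
    Et x θ t0 t1 s F Ψ ≤ Real.exp (-(θ * m / 4)) := by
  rw [Et_weight h hx h0 h01 h1 hs]
  have h2 : Et x 0 t0 t1 s F (fun z0 z1 z2 => Real.exp (θ * xi x t0 t1 F z0 z1) * Ψ z0 z1 z2) ≤
      Et x 0 t0 t1 s F (fun z0 z1 _ => Real.exp (θ * m / 4) *
        Real.exp (θ / 2 * xi x t0 t1 F z0 z1)) := by
    refine Et_mono h hx ((e3_exp_xi h hx t0 t1 θ).mul hΨ) ((e3_exp_xi h hx t0 t1 (θ / 2)).const_mul _)
      fun z0 z1 z2 => ?_
    by_cases hz : Ψ z0 z1 z2 = 0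
    · rw [hz, mul_zero]; positivity
    · have h3 := hev z0 z1 z2 hz
      calc Real.exp (θ * xi x t0 t1 F z0 z1) * Ψ z0 z1 z2 ≤
            Real.exp (θ * xi x t0 t1 F z0 z1) * 1 :=
            mul_le_mul_of_nonneg_left (hΨ1 _ _ _) (Real.exp_pos _).le
        _ ≤ Real.exp (θ * m / 4) * Real.exp (θ / 2 * xi x t0 t1 F z0 z1) := by
            rw [mul_one, ← Real.exp_add, Real.exp_le_exp]
            nlinarith
  rw [Et_const_mul, Et_exp_xi h hx h0 h01 h1 hs] at h2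
  have h3 := mul_le_mul_of_nonneg_left h2 (Real.exp_pos (-(Lth x θ t0 t1 F))).le
  refine h3.trans ?_
  rw [← Real.exp_add, ← Real.exp_add, Real.exp_le_exp]
  have h4 := Lth_half (θ := θ) h hx h0 h01 (h1.trans hs)
  have h5 := Lth_ge (θ := θ / 2) (D := D) h hx h0 h01 (h1.trans hs) (by positivity)
  have h6 := mul_le_mul_of_nonneg_left hm (by positivity : 0 ≤ θ / 2)
  linarith

/-- **(T4), the transfer** of small quantities from `P_x` to `P_θ`. -/
theorem Et_transfer (h : C11 F D B L) (hc : Cv F) (hx : 0 < x) (h0 : 0 ≤ t0) (h01 : t0 ≤ t1)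
    (h1 : t1 ≤ s) (hs : s ≤ 1) (hθ : 0 ≤ θ) (hθ1 : θ ≤ 1 / 4) (hΨ : E3 Ψ) :
    Et x θ t0 t1 s F Ψ ≤ Real.exp (θ * (x ^ 2 * GG (2 * x) F D)) *
      √(Et x 0 t0 t1 s F (fun z0 z1 z2 => Ψ z0 z1 z2 ^ 2)) := by
  rw [Et_weight h hx h0 h01 h1 hs]
  have h2 := Et_cs (θ := 0) (t0 := t0) (t1 := t1) (s := s) h hx
    (e3_exp_xi h hx t0 t1 θ) hΨ
  have e : (fun (z0 z1 _ : κ → ℝ) => Real.exp (θ * xi x t0 t1 F z0 z1) ^ 2) =
      fun z0 z1 _ => Real.exp (2 * θ * xi x t0 t1 F z0 z1) := by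
    funext z0 z1 _
    rw [← Real.exp_nat_mul]
    congr 1
    push_cast
    ring
  rw [e, Et_exp_xi h hx h0 h01 h1 hs] at h2
  have h3 := Lth_le_GG (θ := 2 * θ) h hc hx h0 h01 (h1.trans hs) (by positivity) (by linarith)
  have h4 := Lth_nonneg (D := D) h hx h0 h01 (h1.trans hs) hθ
  set S := Et x 0 t0 t1 s F (fun z0 z1 z2 => Ψ z0 z1 z2 ^ 2) with hS
  have hS0 : 0 ≤ S := Et_nonneg h hx fun _ _ _ => sq_nonneg _
  have h5 : Et x 0 t0 t1 s F (fun z0 z1 z2 => Real.exp (θ * xi x t0 t1 F z0 z1) * Ψ z0 z1 z2) ≤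
      Real.exp (θ * (x ^ 2 * GG (2 * x) F D)) * √S := by
    refine (abs_le.1 (abs_le_of_sq_le_sq (h2.trans ?_) (by positivity))).2
    rw [mul_pow, Real.sq_sqrt hS0, ← Real.exp_nat_mul]
    refine mul_le_mul_of_nonneg_right (Real.exp_le_exp.2 ?_) hS0
    push_cast
    linarith
  have h6 : Real.exp (-(Lth x θ t0 t1 F)) ≤ 1 := by
    rw [Real.exp_le_one_iff]; linarith
  have h7 : 0 ≤ Real.exp (θ * (x ^ 2 * GG (2 * x) F D)) * √S := by positivity
  calc _ ≤ Real.exp (-(Lth x θ t0 t1 F)) * (Real.exp (θ * (x ^ 2 * GG (2 * x) F D)) * √S) :=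
        mul_le_mul_of_nonneg_left h5 (Real.exp_pos _).le
    _ ≤ 1 * (Real.exp (θ * (x ^ 2 * GG (2 * x) F D)) * √S) :=
        mul_le_mul_of_nonneg_right h6 h7
    _ = _ := one_mul _

/-- **(T1).** -/
theorem Lth_bd (h : C11 F D B L) (hc : Cv F) (hx : 0 < x) (h0 : 0 ≤ t0) (h01 : t0 ≤ t1)
    (h1 : t1 ≤ 1) (hθ : 0 ≤ θ) (hθ1 : θ ≤ 1 / 2) :
    0 ≤ Lth x θ t0 t1 F ∧ Lth x θ t0 t1 F ≤ θ * (x ^ 2 * GG (2 * x) F D) :=
  ⟨Lth_nonneg (D := D) h hx h0 h01 h1 hθ, Lth_le_GG h hc hx h0 h01 h1 hθ hθ1⟩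

open Classical in
/-- **(T2).** -/
theorem tilt (h : C11 F D B L) (hx : 0 < x) (h0 : 0 ≤ t0) (h01 : t0 ≤ t1)
    (h1 : t1 ≤ s) (hs : s ≤ 1) (hθ : 0 ≤ θ) (hm : m ≤ x ^ 2 / 2 * (t1 - t0) * Phi x F D t0) :
    Et x θ t0 t1 s F (fun z0 z1 _ => if xi x t0 t1 F z0 z1 < m / 2 then (1 : ℝ) else 0) ≤
      Real.exp (-(θ * m / 4)) := by
  refine Et_xi_low h hx h0 h01 h1 hs hθ hm (e3_ind_xi h hx t0 t1 (m / 2)) (fun z0 z1 z2 => ?_)
    (fun z0 z1 z2 => ?_) fun z0 z1 z2 hne => ?_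
  · split_ifs <;> norm_num
  · split_ifs <;> norm_num
  · by_contra hh
    push Not at hh
    exact hne (if_neg (not_lt.2 hh.le))

end Vale.Agent.P146.R1
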