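import Vale.Agent.P146.H816.CleanS

/-!
Plan R1, the row (LAM): the sum over the pairs of sites of the inequality
`τ |N|² ≤ G + nl` on every fixed bulk, and the output in numbers.
-/

open MeasureTheory ProbabilityTheory

namespace Vale.Agent.P146.H640.Lam

open Vale.Agent.P157.Lv Vale.Agent.P146.H712 Vale.Agent.P146.H332 Vale.Agent.P146.H325
  Vale.Agent.P146.H816

set_option linter.unusedSectionVars false

variable {ι : Type} [Fintype ι] [DecidableEq ι] {q : Type} [Fintype q] [DecidableEq q]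
variable {p : (ι → ℝ) → ℝ} {A D : (ι → ℝ) → Matrix q q ℝ} {R : q → Finset ι}
  {ρ : q → q → Equiv.Perm ι} {φ : q → q → (ι → ℝ) → ℝ} {a d : q → q → (ι → ℝ) → q → ℝ}
  {M δ lam : q → q → ℝ}

/-- **(LAM), the sum over the pairs.** -/
theorem lam_sum (h : Cl p A D R ρ φ a d M δ lam) {τ : ℝ} (hτ : 0 ≤ τ)
    {nl : q → q → (ι → ℝ) → ℝ} (hnl : ∀ b b', EG (nl b b'))
    (hL : ∀ b b', b' ≠ b → ∀ w, τ * Xf (R b) b b' (a b b') (d b b') w ≤
      Gf (R b) b b' (a b b') (d b b') w + nl b b' w) :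
    τ * ∫ w, p w * fr (A w * D w) ∂(gI ι) ≤
      (1 + τ) * (∫ w, p w * ∑ b, vn (col (A w) b) * vn (col (D w) b) ∂(gI ι)) +
      (∑ b, ∑ b' ∈ Finset.univ.erase b, ((2 + τ) * lam b b' +
        (8 + 4 * τ) * (δ b b' * √(M b b')))) +
      ∑ b, ∑ b' ∈ Finset.univ.erase b, ∫ w, φ b b' w * nl b b' w ∂(gI ι) := by
  have h3 := h.s3
  have h1 := h.s1
  have key : τ * (∑ b, ∑ b' ∈ Finset.univ.erase b, ∫ w, φ b b' w *
      Xf (R b) b b' (a b b') (d b b') w ∂(gI ι)) ≤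
      (∑ b, ∑ b' ∈ Finset.univ.erase b, ∫ w, φ b b' w *
        Gf (R b) b b' (a b b') (d b b') w ∂(gI ι)) +
      ∑ b, ∑ b' ∈ Finset.univ.erase b, ∫ w, φ b b' w * nl b b' w ∂(gI ι) := by
    rw [Finset.mul_sum, ← Finset.sum_add_distrib]
    refine Finset.sum_le_sum fun b _ => ?_
    rw [Finset.mul_sum, ← Finset.sum_add_distrib]
    refine Finset.sum_le_sum fun b' hb => ?_
    have hb' : b' ≠ b := Finset.ne_of_mem_erase hb
    have hT := h.hT b b' hb'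
    have hP := h.hP b b' hb'
    have eN : ∀ {u v : (ι → ℝ) → q → ℝ}, (∀ i, EG fun z => u z i) → (∀ i, EG fun z => v z i) →
        ∀ i j, EG (Nf (R b) b b' u v i j) := fun hu hv i j => eg_Nf hu hv i j
    have eX : EG (Xf (R b) b b' (a b b') (d b b')) :=
      EG.sum _ fun i _ => EG.sum _ fun j _ => (eN hT.ea hT.ed i j).pow 2
    have eG : EG (Gf (R b) b b' (a b b') (d b b')) :=
      EG.sum _ fun i _ => EG.sum _ fun j _ => ((eN hT.ea hT.ea i j).mul (eN hT.ed hT.ed i j)).sub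
        ((eN hT.ea hT.ed i j).pow 2)
    rw [← integral_const_mul, ← integral_add (hP.eφ.mul eG).integrable
      (hP.eφ.mul (hnl b b')).integrable]
    refine integral_mono ((hP.eφ.mul eX).const_mul τ).integrable
      ((hP.eφ.mul eG).add (hP.eφ.mul (hnl b b'))).integrable fun w => ?_
    have := mul_le_mul_of_nonneg_left (hL b b' hb' w) (hP.φ0 w)
    linarith
  have e1 : (∑ b, ∑ b' ∈ Finset.univ.erase b, ((2 + τ) * lam b b' +
        (8 + 4 * τ) * (δ b b' * √(M b b')))) =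
      (∑ b, ∑ b' ∈ Finset.univ.erase b, (2 * lam b b' + 8 * (δ b b' * √(M b b')))) +
      τ * ∑ b, ∑ b' ∈ Finset.univ.erase b, (lam b b' + 4 * (δ b b' * √(M b b'))) := by
    rw [Finset.mul_sum, ← Finset.sum_add_distrib]
    refine Finset.sum_congr rfl fun b _ => ?_
    rw [Finset.mul_sum, ← Finset.sum_add_distrib]
    exact Finset.sum_congr rfl fun b' _ => by ring
  have h4 := mul_le_mul_of_nonneg_left h3 hτ
  rw [e1]
  linarith

/-- **(LAM), the numbers.** -/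
theorem lam_num {Z P dg E NL N n T x r B τ : ℝ} (hZ : 0 < Z) (hN : 0 < N) (hn : 0 < n)
    (hx : 0 ≤ x) (hr : 0 ≤ r) (hB : 1 ≤ B) (hT : 0 < T) (hτ : T / 16 ≤ τ)
    (hτ1 : τ ≤ 1) (hsum : τ * P ≤ (1 + τ) * dg + E + NL) (hP : N ^ 2 / (2 * B ^ 2) * Z ≤ P)
    (hdg : dg ≤ B * (N ^ 2 / n) * Z) (hE : E ≤ B * N ^ 2 * (√(1 / (n * T)) + x * r) * Z)
    (hNL : NL ≤ B * N ^ 2 * r ^ 2 * Z) :
    T ≤ 64 * B ^ 3 * (√(1 / (n * T)) + x * r + r ^ 2 + 1 / n) := by
  have hs : 0 ≤ √(1 / (n * T)) := Real.sqrt_nonneg _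
  have hB0 : 0 < B := by linarith
  have hdg0 : 0 ≤ B * (N ^ 2 / n) * Z := by positivity
  have h1 : (1 + τ) * dg ≤ 2 * (B * (N ^ 2 / n) * Z) := by
    have : (1 + τ) * dg ≤ (1 + τ) * (B * (N ^ 2 / n) * Z) :=
      mul_le_mul_of_nonneg_left hdg (by linarith)
    nlinarith
  have h2 : T / 16 * (N ^ 2 / (2 * B ^ 2) * Z) ≤ τ * P :=
    mul_le_mul hτ hP (by positivity) (by linarith)
  have h3 : T / 16 * (N ^ 2 / (2 * B ^ 2) * Z) ≤ 2 * (B * (N ^ 2 / n) * Z) +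
      B * N ^ 2 * (√(1 / (n * T)) + x * r) * Z + B * N ^ 2 * r ^ 2 * Z := by linarith
  have h4 : (N ^ 2 * Z / (32 * B ^ 2)) * T ≤ (N ^ 2 * Z / (32 * B ^ 2)) *
      (64 * B ^ 3 * (√(1 / (n * T)) + x * r + r ^ 2 + 1 / n)) := by
    have e1 : (N ^ 2 * Z / (32 * B ^ 2)) * T = T / 16 * (N ^ 2 / (2 * B ^ 2) * Z) := by
      field_simp; ring
    have e2 : (N ^ 2 * Z / (32 * B ^ 2)) *
        (64 * B ^ 3 * (√(1 / (n * T)) + x * r + r ^ 2 + 1 / n)) =
        2 * (B * N ^ 2 * (√(1 / (n * T)) + x * r) * Z + B * N ^ 2 * r ^ 2 * Z +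
          B * (N ^ 2 / n) * Z) := by
      field_simp
      ring
    rw [e1, e2]
    have k1 : 0 ≤ B * N ^ 2 * (√(1 / (n * T)) + x * r) * Z := by positivity
    have k2 : 0 ≤ B * N ^ 2 * r ^ 2 * Z := by positivity
    linarith
  exact le_of_mul_le_mul_left h4 (by positivity)

end Vale.Agent.P146.H640.Lam
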