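import Vale.Agent.P146.H640.LamP

/-!
Plan R1, the row (LAM) for a position system with the sizes of `Fo`: the sum over the pairs of
sites of the products of the size of a clean column and the size of a nonlinear part is at most
`C A³ NN² (NN / n²)`.
-/

open MeasureTheory ProbabilityTheory

namespace Vale.Agent.P146.R1S

open Vale.Agent.P157.Lv Vale.Agent.P146.H425 Vale.Agent.P146.H325
  Vale.Agent.P146.H712 Vale.Agent.P146.R1 Vale.Agent.P146.R1C Matrix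
open Vale.Agent.P146.H332 hiding Nf Gf NN fr_nonneg

set_option linter.unusedSectionVars false

variable {n : ℕ} {β A δ T ρ : ℝ} {q : Par} {S : CS n (kk n β) q.x} {s s' : ℝ}
  {P P' : (K4 (Pair n) → ℝ) → Pair n → ℝ}

lemma NN_one {F : (Pair n → ℝ) → ℝ} {AM : ℝ → (Pair n → ℝ) → Matrix (Fin n) (Fin n) ℝ}
    {DM : ℝ → Pair n → (Pair n → ℝ) → Matrix (Fin n) (Fin n) ℝ}
    (h : Fo n β A δ T ρ q F AM DM) : 1 ≤ NN n β ρ := by
  have h3 := h.β0
  unfold NN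
  rw [le_div_iff₀ (by positivity)]
  have h5 := h.ρ1
  have h8 := h.βn
  have h2 := h.n0
  nlinarith

/-- the mean of `∑ T4²` -/
lemma Q4_En (h : Fo n β A δ T ρ q S.F S.A S.DA)
    (hP : ∀ f : (Pair n → ℝ) → ℝ, EG f → EG fun w => f (P w)) (hs : 0 < s)
    (hup : En q S.F (fun w => if A * NN n β ρ < fr (S.A s (P w)) then (1 : ℝ) else 0) ≤ δ)
    (hrt : En q S.F (fun w => rt S.DA s (P w)) ≤ A * NN n β ρ / T) :
    En q S.F (fun w => Q4 S s (P w)) ≤ 6 * (A * NN n β ρ) ^ 2 := by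
  have hc := S.c11
  have hx := h.ok.x0
  have hk := S.k0
  have hA := h.A1
  have hN := h.N0
  have hT := h.Tp
  have efr : EG fun w => fr (S.A s (P w)) := hP (fun z => fr (S.A s z))
    (EG.sum _ fun i _ => EG.sum _ fun j _ => (S.eg_A s i j).pow 2)
  have ert : EG fun w => rt S.DA s (P w) := hP (fun z => rt S.DA s z)
    (EG.sum _ fun e _ => EG.sum _ fun i _ => EG.sum _ fun j _ => (S.eg_DA s e i j).pow 2)
  have h1 : En q S.F (fun w => Q4 S s (P w)) ≤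
      En q S.F (fun w => 2 * fr (S.A s (P w)) ^ 2 +
        4 / (kk n β ^ 2 * q.x ^ 2) * rt S.DA s (P w)) :=
    En_mono hc hx (hP _ eg_Q4) (((efr.pow 2).const_mul 2).add (ert.const_mul _))
      fun w => Q4_le hs (P w)
  refine h1.trans ?_
  rw [En_add hc hx ((efr.pow 2).const_mul 2) (ert.const_mul _), En_const_mul, En_const_mul]
  have h2 := h.mom hc efr (fun w => fr_nonneg _) (fun w => S.fr_A_le s (P w)) hup 2 (by norm_num)
  have h3 : 4 / (kk n β ^ 2 * q.x ^ 2) * En q S.F (fun w => rt S.DA s (P w)) ≤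
      2 * (A * NN n β ρ) ^ 2 := by
    refine (mul_le_mul_of_nonneg_left hrt (by positivity)).trans ?_
    have h4 : A ≤ q.x ^ 2 * ρ * T := by
      refine le_trans ?_ h.xrT
      exact le_self_pow₀ hA (by norm_num)
    have h5 := kk_NN h
    rw [div_mul_div_comm, div_le_iff₀ (by positivity)]
    have h6 : 4 * (A * NN n β ρ) ≤ 2 * NN n β ρ * (2 * (q.x ^ 2 * ρ * T)) := by
      have := mul_le_mul_of_nonneg_left h4 (by positivity : 0 ≤ 4 * NN n β ρ)
      linarith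
    have h7 : 2 * (q.x ^ 2 * ρ * T) = kk n β ^ 2 * q.x ^ 2 * T * NN n β ρ := by
      rw [show kk n β ^ 2 * q.x ^ 2 * T * NN n β ρ = (kk n β ^ 2 * NN n β ρ) * q.x ^ 2 * T by ring,
        h5]
      ring
    rw [h7] at h6
    have h8 : 1 ≤ A ^ 2 := one_le_pow₀ hA
    have h9 : 0 ≤ NN n β ρ ^ 2 * (kk n β ^ 2 * q.x ^ 2 * T) := by positivity
    have h10 := mul_le_mul_of_nonneg_right h8 h9
    calc 4 * (A * NN n β ρ) ≤ 2 * NN n β ρ * (kk n β ^ 2 * q.x ^ 2 * T * NN n β ρ) := h6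
      _ = 2 * (1 * (NN n β ρ ^ 2 * (kk n β ^ 2 * q.x ^ 2 * T))) := by ring
      _ ≤ 2 * (A ^ 2 * (NN n β ρ ^ 2 * (kk n β ^ 2 * q.x ^ 2 * T))) :=
        mul_le_mul_of_nonneg_left h10 (by norm_num)
      _ = 2 * (A * NN n β ρ) ^ 2 * (kk n β ^ 2 * q.x ^ 2 * T) := by ring
  linarith

/-- **One pair.** -/
theorem nl_one (h : Fo n β A δ T ρ q S.F S.A S.DA) (hL : Law2 n ((n : ℝ) ^ 200)⁻¹ q S.F)
    (hP : ∀ f : (Pair n → ℝ) → ℝ, EG f → EG fun w => f (P w))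
    (hP' : ∀ f : (Pair n → ℝ) → ℝ, EG f → EG fun w => f (P' w))
    (hAv : ∀ f : (Pair n → ℝ) → ℝ, EG f → ∀ R w,
      Av (lf R) (fun w => f (P w)) w = AvP s R f (P w))
    (hAv' : ∀ f : (Pair n → ℝ) → ℝ, EG f → ∀ R w,
      Av (lf R) (fun w => f (P' w)) w = AvP s' R f (P' w))
    (hs : 0 < s) (hs1 : s ≤ 1) (hs' : 0 < s') (hs1' : s' ≤ 1)
    (hup : En q S.F (fun w => if A * NN n β ρ < fr (S.A s (P w)) then (1 : ℝ) else 0) ≤ δ)
    (hup' : En q S.F (fun w => if A * NN n β ρ < fr (S.A s' (P' w)) then (1 : ℝ) else 0) ≤ δ)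
    (hrt' : En q S.F (fun w => rt S.DA s' (P' w)) ≤ A * NN n β ρ / T) {cI : ℝ} (hcI : 0 ≤ cI)
    {b b' : Fin n} (hI : ∀ z, vH S s' b b' z ≤ cI * s' ^ 2 * kk n β ^ 4 *
      AvP s' (row b ∪ row b') (fun z => Q4 S s' z) z) :
    En q S.F (fun w => ee S s b b' (P w) * (s' * kk n β ^ 2 * vH S s' b b' (P' w))) ≤
      16 * cI * kk n β ^ 8 * (A * NN n β ρ) ^ 3 := by
  have hc := S.c11
  have hx := h.ok.x0
  have hk := S.k0
  have hA := h.A1
  have hN1 := NN_one h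
  have hn := h.n0
  have hδ := h.δ0
  have efr : EG fun z => fr (S.A s z) :=
    EG.sum _ fun i _ => EG.sum _ fun j _ => (S.eg_A s i j).pow 2
  have h1 := nl_En (q := q) (F := S.F) hc hx hL b b' (f := fun w => fr (S.A s (P w)))
    (g := fun w => Q4 S s' (P' w)) (u := fun w => ee S s b b' (P w))
    (v := fun w => s' * kk n β ^ 2 * vH S s' b b' (P' w)) (hP _ efr) (hP' _ eg_Q4)
    (hP _ (eg_ee b b')) ((hP' _ (eg_vH hs' b b')).const_mul _) (F1 := (n : ℝ) ^ 2)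
    (G1 := (n : ℝ) ^ 4) (K0 := A * NN n β ρ) (c0 := kk n β ^ 2) (c1 := cI * kk n β ^ 6) (η := δ)
    (by positivity) (by positivity) (by positivity) (by positivity)
    (fun w => S.fr_A_le s (P w)) (fun w => Q4_nonneg _) (fun w => Q4_le_pow _)
    (fun w => by
      rw [hAv _ efr]
      refine (ee_le hs b b' (P w)).trans ?_
      have h2 : 0 ≤ AvP s (row b ∪ row b') (fun z => fr (S.A s z)) (P w) :=
        AvP_nonneg (fun _ => fr_nonneg _) _
      refine mul_le_mul_of_nonneg_right ?_ h2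
      have := mul_le_mul_of_nonneg_right hs1 (sq_nonneg (kk n β))
      linarith)
    (fun w => by
      have := vH_nonneg (S := S) (s := s') b b' (P' w)
      positivity)
    (fun w => by
      rw [hAv' _ eg_Q4]
      have h2 : 0 ≤ AvP s' (row b ∪ row b') (fun z => Q4 S s' z) (P' w) :=
        AvP_nonneg (fun _ => Q4_nonneg _) _
      have h3 := mul_le_mul_of_nonneg_left (hI (P' w)) (by positivity : 0 ≤ s' * kk n β ^ 2)
      refine h3.trans ?_
      have h4 : s' ^ 3 ≤ 1 := pow_le_one₀ hs'.le hs1'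
      have h5 : 0 ≤ cI * kk n β ^ 6 *
        AvP s' (row b ∪ row b') (fun z => Q4 S s' z) (P' w) := by positivity
      have := mul_le_mul_of_nonneg_right h4 h5
      calc s' * kk n β ^ 2 * (cI * s' ^ 2 * kk n β ^ 4 *
          AvP s' (row b ∪ row b') (fun z => Q4 S s' z) (P' w)) =
          s' ^ 3 * (cI * kk n β ^ 6 * AvP s' (row b ∪ row b') (fun z => Q4 S s' z) (P' w)) := by
            ring
        _ ≤ 1 * (cI * kk n β ^ 6 * AvP s' (row b ∪ row b') (fun z => Q4 S s' z) (P' w)) := this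
        _ = _ := by ring)
    hup
  refine h1.trans ?_
  have h2 := Q4_En h hP' hs' hup' hrt'
  set N := A * NN n β ρ with hNd
  have hN : 1 ≤ N := by rw [hNd]; nlinarith
  have hn200 : (0 : ℝ) < (n : ℝ) ^ 200 := by positivity
  have e1 : ((n : ℝ) ^ 200)⁻¹ * (n : ℝ) ^ 4 ≤ 1 := by
    rw [inv_mul_le_iff₀ hn200, mul_one]
    exact pow_le_pow_right₀ (by linarith) (by norm_num)
  have e2 : (n : ℝ) ^ 6 * (2 * δ + ((n : ℝ) ^ 200)⁻¹) ≤ 3 := by
    have e3 : (n : ℝ) ^ 6 * ((n : ℝ) ^ 200)⁻¹ ≤ 1 := by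
      rw [← div_eq_mul_inv, div_le_one hn200]
      exact pow_le_pow_right₀ (by linarith) (by norm_num)
    have e4 : (n : ℝ) ^ 6 * δ ≤ 1 := by
      refine le_trans (mul_le_mul_of_nonneg_right ?_ hδ) h.δn
      exact pow_le_pow_right₀ (by linarith) (by norm_num)
    linarith
  have hk8 : 0 ≤ cI * kk n β ^ 8 := by positivity
  have hN3 : N ≤ N ^ 3 := le_self_pow₀ hN (by norm_num)
  have h13 : 1 ≤ N ^ 3 := one_le_pow₀ hN
  calc kk n β ^ 2 * (cI * kk n β ^ 6) * N * (2 * En q S.F (fun w => Q4 S s' (P' w)) +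
        ((n : ℝ) ^ 200)⁻¹ * (n : ℝ) ^ 4) + kk n β ^ 2 * (n : ℝ) ^ 2 *
        (cI * kk n β ^ 6 * (n : ℝ) ^ 4) * (2 * δ + ((n : ℝ) ^ 200)⁻¹)
      = cI * kk n β ^ 8 * (N * (2 * En q S.F (fun w => Q4 S s' (P' w)) +
        ((n : ℝ) ^ 200)⁻¹ * (n : ℝ) ^ 4) + (n : ℝ) ^ 6 * (2 * δ + ((n : ℝ) ^ 200)⁻¹)) := by ring
    _ ≤ cI * kk n β ^ 8 * (N * (2 * (6 * N ^ 2) + 1) + 3) := by
        refine mul_le_mul_of_nonneg_left ?_ hk8
        refine add_le_add (mul_le_mul_of_nonneg_left ?_ (by linarith)) e2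
        linarith
    _ ≤ cI * kk n β ^ 8 * (16 * N ^ 3) := by
        refine mul_le_mul_of_nonneg_left ?_ hk8
        nlinarith
    _ = _ := by ring

/-- **The sum over the pairs of sites.** -/
theorem nl_sum (h : Fo n β A δ T ρ q S.F S.A S.DA) (hL : Law2 n ((n : ℝ) ^ 200)⁻¹ q S.F)
    (hs1 : 0 < q.s1) {cI : ℝ} (hcI : 0 ≤ cI)
    (hI : ∀ s, 0 < s → s ≤ 1 → ∀ b b' : Fin n, b' ≠ b → ∀ z, vH S s b b' z ≤
      cI * s ^ 2 * kk n β ^ 4 * AvP s (row b ∪ row b') (fun z => Q4 S s z) z) :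
    ∑ b : Fin n, ∑ b' ∈ Finset.univ.erase b, En q S.F (fun w =>
      ee S q.s1 b b' (P2 q w) * (q.s2 * kk n β ^ 2 * vH S q.s2 b b' (P3 q w)) +
      ee S q.s2 b b' (P3 q w) * (q.s1 * kk n β ^ 2 * vH S q.s1 b b' (P2 q w))) ≤
      32 * cI * β ^ 8 * A ^ 3 * (NN n β ρ ^ 3 / (n : ℝ) ^ 2) := by
  have hq := h.ok
  have hc := S.c11
  have hx := h.ok.x0
  have hs2 : 0 < q.s2 := lt_of_lt_of_le hs1 hq.h12
  have hs11 : q.s1 ≤ 1 := hq.h12.trans hq.h2
  have hn := h.n0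
  have hA := h.A1
  have hN := h.N0
  have hk := S.k0
  have key : ∀ b : Fin n, ∀ b' ∈ Finset.univ.erase b, En q S.F (fun w =>
      ee S q.s1 b b' (P2 q w) * (q.s2 * kk n β ^ 2 * vH S q.s2 b b' (P3 q w)) +
      ee S q.s2 b b' (P3 q w) * (q.s1 * kk n β ^ 2 * vH S q.s1 b b' (P2 q w))) ≤
      32 * cI * kk n β ^ 8 * (A * NN n β ρ) ^ 3 := by
    intro b b' hb
    have hb' := Finset.ne_of_mem_erase hb
    have a1 := nl_one h hL (P := P2 q) (P' := P3 q) (s := q.s1) (s' := q.s2)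
      (fun f hf => eg_P2 hf) (fun f hf => eg_P3 hf) (fun f hf R w => Av_lf_P2 hq hf R w)
      (fun f hf R w => Av_lf_P3 hq hf R w) hs1 hs11 hs2 hq.h2 h.up2 h.up3 h.rt3 hcI
      (hI q.s2 hs2 hq.h2 b b' hb')
    have a2 := nl_one h hL (P := P3 q) (P' := P2 q) (s := q.s2) (s' := q.s1)
      (fun f hf => eg_P3 hf) (fun f hf => eg_P2 hf) (fun f hf R w => Av_lf_P3 hq hf R w)
      (fun f hf R w => Av_lf_P2 hq hf R w) hs2 hq.h2 hs1 hs11 h.up3 h.up2 h.rt2 hcI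
      (hI q.s1 hs1 hs11 b b' hb')
    rw [En_add hc hx ((eg_P2 (eg_ee b b')).mul ((eg_P3 (eg_vH hs2 b b')).const_mul _))
      ((eg_P3 (eg_ee b b')).mul ((eg_P2 (eg_vH hs1 b b')).const_mul _))]
    linarith
  have hX : 0 ≤ 32 * cI * kk n β ^ 8 * (A * NN n β ρ) ^ 3 := by positivity
  have h1 : ∀ b : Fin n, ∑ b' ∈ Finset.univ.erase b, En q S.F (fun w =>
      ee S q.s1 b b' (P2 q w) * (q.s2 * kk n β ^ 2 * vH S q.s2 b b' (P3 q w)) +
      ee S q.s2 b b' (P3 q w) * (q.s1 * kk n β ^ 2 * vH S q.s1 b b' (P2 q w))) ≤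
      n * (32 * cI * kk n β ^ 8 * (A * NN n β ρ) ^ 3) := by
    intro b
    refine (Finset.sum_le_sum (key b)).trans ?_
    rw [Finset.sum_const, nsmul_eq_mul]
    refine mul_le_mul_of_nonneg_right ?_ hX
    have h2 := Finset.card_le_univ (Finset.univ.erase b)
    rw [Fintype.card_fin] at h2
    exact_mod_cast h2
  refine (Finset.sum_le_sum fun b _ => h1 b).trans (le_of_eq ?_)
  rw [Finset.sum_const, Finset.card_univ, Fintype.card_fin, nsmul_eq_mul]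
  have hkk := kk_sq (by have := h.n2; omega : 0 < n) β
  have e8 : kk n β ^ 8 = β ^ 8 / (n : ℝ) ^ 4 := by
    rw [eq_div_iff (by positivity), show kk n β ^ 8 * (n : ℝ) ^ 4 = (kk n β ^ 2 * n) ^ 4 by ring,
      hkk]
    ring
  rw [e8]
  field_simp

end Vale.Agent.P146.R1S
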